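import Vale.Agent.P011N.Cl.EI.R6

/-!
Generic frames.
-/

namespace Vale.Agent.P011N.Cl.EI

open Vale.Agent.P011.MPQ Vale.Agent.P011.D4 Vale.Agent.P011.D4.Oct Vale.Agent.P011.E6 Equiv Module
open Vale.Agent.P011.E6.Alb

section gen

variable {F : Type} [Field F] [CharZero F] {A B C : Fˣ}

/-- The big cell of the vectors of rank one. -/
def cell (w : Oct A B C × Oct A B C) : Alb A B C :=
  ⟨1, norm w.2, norm w.1, star (w.1 * w.2), w.1, w.2⟩

omit [CharZero F] in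
theorem adj_cell (w : Oct A B C × Oct A B C) : adj (cell w) = 0 := by
  ext1 <;> simp [adj, cell, Oct.norm_mul, mul_comm, -star_mul]
  · rw [star_mul, star_star, mul_mul_star, sub_self]
  · rw [star_mul, star_star, star_mul_mul, sub_self]

theorem exists_cell {x : Alb A B C} (hx : x ≠ 0) : ∃ w, tf (cell w) x ≠ 0 := by
  by_contra hc
  push Not at hc
  have h1 : x.d1 = 0 := by simpa [tf, cell] using hc (0, 0)
  have h2 : ∀ v : Oct A B C, norm v * x.d2 + bil v x.x3 = 0 := fun v => by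
    simpa [tf, cell, h1] using hc (0, v)
  have h3 : ∀ v : Oct A B C, norm v * x.d3 + bil v x.x2 = 0 := fun v => by
    simpa [tf, cell, h1] using hc (v, 0)
  have h4 : ∀ {d : F} {u : Oct A B C}, (∀ v : Oct A B C, norm v * d + bil v u = 0) →
      d = 0 ∧ u = 0 := by
    intro d u h
    have k1 : u = 0 := eq_zero_of_bil fun v => by
      have k2 := h (-v)
      rw [Oct.norm_neg, bil_neg_left] at k2
      rw [bil_comm]
      linear_combination (1 / 2 : F) * h v - (1 / 2 : F) * k2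
    exact ⟨by simpa [k1] using h 1, k1⟩
  refine hx (Alb.ext h1 (h4 h2).1 (h4 h3).1 (eq_zero_of_bil fun v => ?_) (h4 h3).2 (h4 h2).2)
  simpa [tf, cell, h1, h4 h2, h4 h3, bil_comm v] using hc (1, star v)

theorem pf_cell (x : Alb A B C) : (fun w => tf (cell w) x) ∈ PF F (Oct A B C × Oct A B C) :=
  PF.add (PF.add (PF.add (PF.add (PF.add (PF.const (1 * x.d1))
    (PF.mul PM.id.snd.onorm (PF.const _)))
    (PF.mul PM.id.fst.onorm (PF.const _))) ((PM.id.fst.omul PM.id.snd).ostar.obil (PM.const _)))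
    (PM.id.fst.obil (PM.const _))) (PM.id.snd.obil (PM.const _))

theorem exists_uop {x y : Alb A B C} (hx : x ≠ 0) (hy : y ≠ 0) : ∃ η, tf (uop η x) y ≠ 0 := by
  classical
  obtain ⟨w, -, h⟩ := exists_ne_all (F := F) (⊤ : AddSubmonoid (Oct A B C × Oct A B C)) (by simp)
    {x, y} (fun z _ => pf_cell z) fun z hz => exists_cell (by
      rcases Finset.mem_insert.1 hz with rfl | hz
      exacts [hx, Finset.mem_singleton.1 hz ▸ hy])
  refine ⟨cell w, ?_⟩
  rw [uop_of_adj (adj_cell w), tf_smul_left]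
  exact mul_ne_zero (h x (by simp)) (h y (by simp))

theorem exists_tri {x y z : Alb A B C} (hx : x ≠ 0) (hy : y ≠ 0) (hz : z ≠ 0) :
    ∃ a b c, tf (uop a x) (cross (uop b y) (uop c z)) ≠ 0 := by
  obtain ⟨a, h1⟩ := exists_uop hx hx
  obtain ⟨w, h2⟩ : ∃ w, cross (uop a x) w ≠ 0 := by
    by_contra hc
    push Not at hc
    refine h1 (by
      rw [eq_zero_of_adj (u := uop a x) fun w => ?_, tf_zero_left]
      have h3 := tf_cross_self w (uop a x)
      rw [cross_comm, hc, tf_zero_right] at h3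
      exact (mul_eq_zero.1 h3.symm).resolve_left two_ne_zero)
  obtain ⟨b, h3⟩ := exists_uop hy h2
  obtain ⟨c, h4⟩ := exists_uop (y := cross (uop a x) (uop b y)) hz fun h0 =>
    h3 (by rw [← tf_cross, cross_comm, h0, tf_zero_left])
  exact ⟨a, b, c, by rwa [← tf_cross, tf_comm]⟩

variable {W V : Type} [AddCommGroup W] [Module F W] [AddCommGroup V] [Module F V] {γ : Gl F}

theorem semi_zero {S : Set W} (hS : Submodule.span F S = ⊤) {g : W → V} (hg : Semi γ g)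
    (h : ∀ y ∈ S, g y = 0) (y : W) : g y = 0 := by
  have hy : y ∈ Submodule.span F S := hS ▸ Submodule.mem_top
  induction hy using Submodule.span_induction with
  | mem x hx => exact h x hx
  | zero => exact hg.zero
  | add x y _ _ hx hy => rw [hg.add, hx, hy, add_zero]
  | smul t x _ hx => rw [hg.smul, hx, smul_zero]

theorem span_three (S : AddSubmonoid W) (hS : Submodule.span F (S : Set W) = ⊤) {f : W → W}
    (hf : Semi γ f) (hs : Function.Surjective f) {t : F} (ht : ∀ y ∈ S, t • y ∈ S)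
    (h1 : γ t ≠ t) (h2 : γ (γ t) ≠ t) : Submodule.span F (S.map ((AddMonoidHom.id W).prod
      (hf.hom.prod (hf.hom.comp hf.hom))) : Set (W × W × W)) = ⊤ := by
  by_contra hne
  obtain ⟨l, hl0, hl⟩ := Submodule.exists_le_ker_of_lt_top _ (lt_top_iff_ne_top.2 hne)
  have h3 : ∀ x y z, l (x, y, z) = l (x, 0, 0) + l (0, y, 0) + l (0, 0, z) := fun x y z => by
    rw [← map_add, ← map_add]
    simp
  have h4 : ∀ (s : F) x, l (s • x, 0, 0) = s * l (x, 0, 0) ∧ l (0, s • x, 0) = s * l (0, x, 0) ∧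
      l (0, 0, s • x) = s * l (0, 0, x) := fun s x => by
    simp only [← smul_eq_mul, ← map_smul, Prod.smul_mk, smul_zero, and_self]
  have h5 : ∀ y ∈ S, l (y, 0, 0) + l (0, f y, 0) + l (0, 0, f (f y)) = 0 := fun y hy =>
    (h3 _ _ _).symm.trans (hl (Submodule.subset_span ⟨y, hy, rfl⟩))
  have h6 : ∀ y ∈ S, l (y, 0, 0) = 0 ∧ l (0, f y, 0) = 0 ∧ l (0, 0, f (f y)) = 0 := fun y hy => by
    have k0 := h5 y hy
    have k1 := h5 _ (ht y hy)
    have k2 := h5 _ (ht _ (ht y hy))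
    simp only [hf.smul, h4] at k1 k2
    have k3 := sub_ne_zero.2 h1
    have k4 := sub_ne_zero.2 h2
    have k5 := sub_ne_zero.2 (γ.injective.ne h1)
    refine ⟨mul_left_cancel₀ (mul_ne_zero k3 k4) ?_, mul_left_cancel₀ (mul_ne_zero k3 k5) ?_,
      mul_left_cancel₀ (mul_ne_zero k4 k5) ?_⟩
    · linear_combination k2 - (γ t + γ (γ t)) * k1 + γ t * γ (γ t) * k0
    · linear_combination -k2 + (t + γ (γ t)) * k1 - t * γ (γ t) * k0
    · linear_combination k2 - (t + γ t) * k1 + t * γ t * k0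
  refine hl0 (LinearMap.ext ?_)
  rintro ⟨x, y, z⟩
  obtain ⟨y, rfl⟩ := hs y
  obtain ⟨z, rfl⟩ := (hs.comp hs) z
  have k1 := semi_zero hS (γ := 1) (g := fun x => l (x, 0, 0))
    (semi_lin (l ∘ₗ LinearMap.inl F _ _)) (fun y hy => (h6 y hy).1) x
  have k2 := semi_zero hS (Semi.lin_comp (semi_lin (l ∘ₗ LinearMap.inr F _ _ ∘ₗ
    LinearMap.inl F _ _)) hf) (fun y hy => (h6 y hy).2.1) y
  have k3 := semi_zero hS (Semi.lin_comp (semi_lin (l ∘ₗ LinearMap.inr F _ _ ∘ₗ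
    LinearMap.inr F _ _)) (hf.comp hf)) (fun y hy => (h6 y hy).2.2) z
  rw [h3, k1, zero_add]
  exact (congrArg₂ (· + ·) k2 k3).trans (add_zero 0)

end gen

variable {F : Type} [Field F] [NumberField F] {A B C : Fˣ} {Γ : Subgroup (Gl F)}
  {Φ Ψ : Subgroup (Perm (V6 A B C))}

theorem GS.exists_inr (h : GS Γ Φ Ψ) {x : Alb A B C} (h0 : x ≠ 0) (h1 : adj x = 0)
    (h2 : Fv Ψ (x, 0)) : ∃ z, z ≠ 0 ∧ adj z = 0 ∧ Fv Ψ (0, z) := by
  obtain ⟨η, h3, h4⟩ := h.exists_pf LinearMap.inr_injective h.inr PM.id.acub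
    ⟨_, cub_diag_one.trans_ne one_ne_zero⟩
  exact ⟨uop η x, fun h5 => h0 (uop_eq_zero h4 h5), by rw [adj_uop, h1, uop_zero],
    h.uop_inr h3 h2⟩

/-- A frame of fixed vectors. -/
theorem GS.exists_frame (h : GS Γ Φ Ψ) {z : Alb A B C} (h0 : z ≠ 0) (h1 : adj z = 0)
    (h2 : Fv Ψ (0, z)) : ∃ x : Fin 3 → Alb A B C, (∀ i, adj (x i) = 0) ∧
      tf (x 0) (cross (x 1) (x 2)) ≠ 0 ∧ ∀ i, Fv Ψ (x i, 0) := by
  obtain ⟨a, b, c, h3⟩ := exists_tri h0 h0 h0
  obtain ⟨a, ha, h4⟩ := h.exists_pf LinearMap.inl_injective h.inl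
    ((PM.id.auop (PM.const z)).atf (PM.const _)) ⟨a, h3⟩
  obtain ⟨b, hb, h5⟩ := h.exists_pf LinearMap.inl_injective h.inl
    ((PM.const _).atf ((PM.id.auop (PM.const z)).across (PM.const _))) ⟨b, h4⟩
  obtain ⟨c, hc, h6⟩ := h.exists_pf LinearMap.inl_injective h.inl
    ((PM.const _).atf ((PM.const _).across (PM.id.auop (PM.const z)))) ⟨c, h5⟩
  refine ⟨fun i => uop (![a, b, c] i) z, fun i => by rw [adj_uop, h1, uop_zero], h6,
    fun i => h.uop_inl ?_ h2⟩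
  fin_cases i
  exacts [ha, hb, hc]

/-- A frame which is cyclically permuted. -/
theorem GS.exists_cyc (h : GS Γ Φ Ψ) {z : Alb A B C} (h0 : z ≠ 0) (h1 : adj z = 0)
    (h2 : Fv Ψ (0, z)) {r : Gl F} (hr : r ∉ Γ) (h3 : r ^ 3 ∈ Γ) {f g : Alb A B C → Alb A B C}
    {ν₁ ν₂ l : F} (hp : Pr6 r ν₁ ν₂ l f g) :
    ∃ x, adj x = 0 ∧ tf x (cross (f x) (f (f x))) ≠ 0 ∧ Fv Ψ (x, 0) := by
  obtain ⟨t, h4, h5⟩ : ∃ t, Fx Γ t ∧ r t ≠ t := by
    by_contra hc
    push Not at hc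
    rw [← IntermediateField.fixingSubgroup_fixedField Γ] at hr
    exact hr fun x => hc x (fx_iff.2 x.2)
  have h6 : r (r t) ≠ t := fun h6 => h5 ((congrArg r h6).symm.trans (h4 _ h3))
  have h7 : ∀ {y}, y ≠ 0 → g y ≠ 0 := fun hy h7 => hy (hp.b2.1 (h7.trans hp.s2.zero.symm))
  obtain ⟨a, b, c, h8⟩ := exists_tri h0 (h7 h0) (h7 (h7 h0))
  obtain ⟨_, ⟨y, h9, rfl⟩, h10⟩ := exists_ne_pf _ (span_three (h.fm (LinearMap.inl F _ _))
    (h.span LinearMap.inl_injective h.inl) hp.s1 hp.b1.2 (t := t)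
    (fun y hy φ hφ => by rw [map_smul]; exact h.smul h4 hy φ hφ) h5 h6)
    ((PM.id.fst.auop (PM.const z)).atf ((PM.id.snd.fst.auop (PM.const (g z))).across
      (PM.id.snd.snd.auop (PM.const (g (g z)))))) ⟨(a, b, c), h8⟩
  refine ⟨uop y z, by rw [adj_uop, h1, uop_zero], fun h11 => h10 ?_, h.uop_inl h9 h2⟩
  change tf (uop y z) (cross (uop (f y) (g z)) (uop (f (f y)) (g (g z)))) = 0
  rw [hp.uop (f y), hp.uop, hp.s1.smul, cross_smul_left, cross_smul_right, cross_smul_right,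
    tf_smul_right, tf_smul_right, tf_smul_right, h11, mul_zero, mul_zero, mul_zero]

end Vale.Agent.P011N.Cl.EI
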