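import Vale.Agent.P011N.Cl.JT.Frame
import Vale.Agent.P011N.Cl.Defs2

/-!
Groups of semilinear bijections which map isomorphically onto a group of automorphisms.
-/

namespace Vale.Agent.P011N.Cl.EI

open Vale.Agent.P011.MPQ Vale.Agent.P011.D4 Vale.Agent.P011.D4.Oct Vale.Agent.P011.E6 Equiv Module

/-- The vector is fixed by the group. -/
def Fv {V : Type} (Ψ : Subgroup (Perm V)) (v : V) : Prop := ∀ φ ∈ Ψ, φ v = v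

section gen

variable {F V V' W : Type} [Field F] [CharZero F] [AddCommGroup V] [Module F V]
  [AddCommGroup V'] [Module F V'] [AddCommGroup W] [Module F W] {Γ : Subgroup (Gl F)}
  {Ψ : Subgroup (Perm V)} {γ : Gl F}

/-- A group of semilinear bijections without linear elements. -/
structure Gen (Γ : Subgroup (Gl F)) (Ψ : Subgroup (Perm V)) : Prop where
  ov : Over Γ Ψ
  lin : ∀ φ ∈ Ψ, Semi (id : F → F) φ → φ = 1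

theorem Gen.eq (h : Gen Γ Ψ) {φ φ' : Perm V} (hφ : φ ∈ Ψ) (hφ' : φ' ∈ Ψ) (h1 : Semi γ φ)
    (h2 : Semi γ φ') : φ = φ' := by
  have h3 := h1.mul h2.inv
  rw [mul_inv_cancel] at h3
  exact mul_inv_eq_one.1 (h.lin _ (Ψ.mul_mem hφ (Ψ.inv_mem hφ')) h3)

theorem Gen.tr (h : Gen Γ Ψ) {ψ : V' ≃ V} (hψ : Semi (id : F → F) ψ) : Gen Γ (tr ψ Ψ) where
  ov := h.ov.tr hψ
  lin _ hφ h1 := ψ.permCongrHom.injective
    ((h.lin _ hφ ((semi_congr (γ := 1) hψ).2 h1)).trans (map_one _).symm)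

omit [AddCommGroup V] [AddCommGroup V'] in
theorem fv_tr {ψ : V' ≃ V} {v : V'} : Fv (tr ψ Ψ) v ↔ Fv Ψ (ψ v) := by
  refine ⟨fun h φ hφ => ?_, fun h φ hφ => ψ.injective ?_⟩
  · simpa [Equiv.symm_apply_eq] using h _ (symm_mem_tr.2 hφ)
  · simpa using h _ hφ

theorem Gen.add (h : Gen Γ Ψ) {x y : V} (hx : Fv Ψ x) (hy : Fv Ψ y) : Fv Ψ (x + y) :=
  fun φ hφ => by
    obtain ⟨γ, -, h1⟩ := h.ov.semi φ hφ
    rw [h1.add, hx φ hφ, hy φ hφ]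

theorem Gen.smul (h : Gen Γ Ψ) {t : F} {x : V} (ht : Fx Γ t) (hx : Fv Ψ x) : Fv Ψ (t • x) :=
  fun φ hφ => by
    obtain ⟨γ, h1, h2⟩ := h.ov.semi φ hφ
    rw [h2.smul, ht γ h1, hx φ hφ]

theorem Gen.fx (h : Gen Γ Ψ) {t : F} {x : V} (h0 : x ≠ 0) (hx : Fv Ψ x) (ht : Fv Ψ (t • x)) :
    Fx Γ t := fun γ hγ => by
  obtain ⟨φ, h1, h2⟩ := h.ov.onto γ hγ
  have h3 := ht φ h1
  rw [h2.smul, hx φ h1] at h3
  exact smul_left_injective F h0 h3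

/-- The vectors with fixed image. -/
def Gen.fm (h : Gen Γ Ψ) (L : W →ₗ[F] V) : AddSubmonoid W where
  carrier := {w | Fv Ψ (L w)}
  add_mem' hx hy := by
    change Fv Ψ (L _)
    rw [map_add]
    exact h.add hx hy
  zero_mem' φ hφ := by
    obtain ⟨γ, -, h1⟩ := h.ov.semi φ hφ
    rw [map_zero, h1.zero]

end gen

section nf

variable {F V W : Type} [Field F] [NumberField F] [AddCommGroup V] [Module F V]
  [AddCommGroup W] [Module F W] {Γ : Subgroup (Gl F)} {Ψ : Subgroup (Perm V)}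

theorem Gen.span (h : Gen Γ Ψ) {L : W →ₗ[F] V} (hL : Function.Injective L)
    (hs : ∀ φ ∈ Ψ, ∀ w, ∃ w', φ (L w) = L w') : Submodule.span F (h.fm L : Set W) = ⊤ := by
  choose! ρ h1 h2 using h.ov.onto
  choose! b hb using hs
  have h3 := span_fixed (Γ := Γ) (fun γ => b (ρ γ))
    (fun γ hγ t x y => hL (by
      rw [← hb _ (h1 γ hγ), map_add L, map_add L, map_smul L, map_smul L, h2 γ hγ,
        hb _ (h1 γ hγ), hb _ (h1 γ hγ)]))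
    (fun γ hγ δ hδ x => hL (by
      rw [← hb _ (h1 _ (Γ.mul_mem hγ hδ)), ← hb _ (h1 γ hγ), ← hb _ (h1 δ hδ),
        h.eq (h1 _ (Γ.mul_mem hγ hδ)) (Ψ.mul_mem (h1 γ hγ) (h1 δ hδ)) (h2 _ (Γ.mul_mem hγ hδ))
          ((h2 γ hγ).mul (h2 δ hδ)), Perm.mul_apply]))
    (fun x => hL (by
      rw [← hb _ (h1 _ Γ.one_mem), h.lin _ (h1 _ Γ.one_mem) (h2 _ Γ.one_mem), Perm.one_apply]))
  rw [eq_top_iff, ← h3]
  refine Submodule.span_mono fun w hw φ hφ => ?_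
  obtain ⟨γ, h4, h5⟩ := h.ov.semi φ hφ
  rw [h.eq hφ (h1 γ h4) h5 (h2 γ h4), hb _ (h1 γ h4)]
  exact congrArg L (hw γ h4)

theorem Gen.exists_all [FiniteDimensional F W] (h : Gen Γ Ψ) {L : W →ₗ[F] V}
    (hL : Function.Injective L) (hs : ∀ φ ∈ Ψ, ∀ w, ∃ w', φ (L w) = L w') {n : ℕ}
    {f : Fin n → W → F} (hf : ∀ i, f i ∈ PF F W) (h0 : ∀ i, ∃ x, f i x ≠ 0) :
    ∃ w, Fv Ψ (L w) ∧ ∀ i, f i w ≠ 0 := by
  obtain ⟨w, h1, h2⟩ := exists_ne_all (h.fm L) (h.span hL hs) Finset.univ (fun i _ => hf i)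
    fun i _ => h0 i
  exact ⟨w, h1, fun i => h2 i (Finset.mem_univ i)⟩

theorem Gen.exists_pf [FiniteDimensional F W] (h : Gen Γ Ψ) {L : W →ₗ[F] V}
    (hL : Function.Injective L) (hs : ∀ φ ∈ Ψ, ∀ w, ∃ w', φ (L w) = L w')
    {f : W → F} (hf : f ∈ PF F W) (h0 : ∃ x, f x ≠ 0) : ∃ w, Fv Ψ (L w) ∧ f w ≠ 0 :=
  exists_ne_pf (h.fm L) (h.span hL hs) hf h0

theorem Gen.exists_ne [Nontrivial W] (h : Gen Γ Ψ) {L : W →ₗ[F] V} (hL : Function.Injective L)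
    (hs : ∀ φ ∈ Ψ, ∀ w, ∃ w', φ (L w) = L w') : ∃ w, w ≠ 0 ∧ Fv Ψ (L w) := by
  by_contra hc
  have h1 : Submodule.span F (h.fm L : Set W) ≤ ⊥ :=
    Submodule.span_le.2 fun w hw => by_contra fun h0 => hc ⟨w, h0, hw⟩
  rw [h.span hL hs] at h1
  exact top_ne_bot (le_bot_iff.1 h1)

/-- A stable line contains a fixed vector. -/
theorem Gen.exists_smul (h : Gen Γ Ψ) {v : V} (h0 : v ≠ 0) (hv : ∀ φ ∈ Ψ, ∃ c : F, φ v = c • v) :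
    ∃ t : F, t ≠ 0 ∧ Fv Ψ (t • v) :=
  h.exists_ne (L := LinearMap.toSpanSingleton F V v) (smul_left_injective F h0) fun φ hφ t => by
    obtain ⟨γ, -, h1⟩ := h.ov.semi φ hφ
    obtain ⟨c, hc⟩ := hv φ hφ
    exact ⟨γ t * c, by simp only [LinearMap.toSpanSingleton_apply, h1.smul, hc, smul_smul]⟩

end nf

section gs

variable {F : Type} [Field F] [CharZero F] {A B C A' B' C' : Fˣ} {Γ Γ₁ : Subgroup (Gl F)}
  {Φ Ψ : Subgroup (Perm (V6 A B C))} {γ : Gl F} {φ : Perm (V6 A B C)}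

/-- A subgroup of similitudes which preserve the trace form, without linear elements. -/
structure GS (Γ₁ : Subgroup (Gl F)) (Φ Ψ : Subgroup (Perm (V6 A B C))) : Prop
    extends Gen Γ₁ Ψ where
  le : Ψ ≤ Φ
  sim : ∀ φ ∈ Ψ, ∀ γ : Gl F, Semi γ φ → ∃ ν₁ ν₂, Sim6 γ false ν₁ ν₂ 1 φ

omit [CharZero F] in
theorem smul_inl (t : F) (x : Alb A B C) : ((t • x, 0) : V6 A B C) = t • (x, 0) := by simp

omit [CharZero F] in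
theorem smul_inr (t : F) (x : Alb A B C) : ((0, t • x) : V6 A B C) = t • (0, x) := by simp

omit [CharZero F] in
theorem inl_ne {x : Alb A B C} (h : x ≠ 0) : ((x, 0) : V6 A B C) ≠ 0 :=
  fun h0 => h (congrArg Prod.fst h0)

theorem sim_false (h : Dat6 Γ Φ) (hi : ∀ φ ∈ Φ, ∀ x, (φ (x, 0)).2 = 0) (hφ : φ ∈ Φ)
    (hγ : Semi γ φ) : ∃ ν₁ ν₂ l, Sim6 γ false ν₁ ν₂ l φ := by
  obtain ⟨ε, _, _, _, h1⟩ := h.sim_of hφ hγ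
  obtain rfl := h1.inner_iff.1 (hi φ hφ)
  exact ⟨_, _, _, h1⟩

theorem exists_gs (h : Dat6 Γ Φ) (hi : ∀ φ ∈ Φ, ∀ x, (φ (x, 0)).2 = 0) (hle : Γ₁ ≤ Γ)
    {y : Alb A B C} (h0 : y ≠ 0)
    (hy : ∀ φ ∈ Φ, ∀ γ ∈ Γ₁, Semi γ φ → ∃ c : F, φ (y, 0) = c • (y, 0)) : ∃ Ψ, GS Γ₁ Φ Ψ := by
  let Ψ : Subgroup (Perm (V6 A B C)) :=
    { carrier := {φ | φ ∈ Φ ∧ φ (y, 0) = (y, 0) ∧ ∃ γ ∈ Γ₁, ∃ ν₁ ν₂, Sim6 γ false ν₁ ν₂ 1 φ}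
      mul_mem' := by
        rintro φ ψ ⟨h1, h2, γ, h3, _, _, h4⟩ ⟨k1, k2, δ, k3, _, _, k4⟩
        exact ⟨Φ.mul_mem h1 k1, by rw [Perm.mul_apply, k2, h2], _, Γ₁.mul_mem h3 k3, _, _,
          (h4.comp k4).cast rfl rfl rfl rfl (by simp)⟩
      one_mem' := ⟨Φ.one_mem, rfl, 1, Γ₁.one_mem, _, _, sim6_id⟩
      inv_mem' := by
        rintro φ ⟨h1, h2, γ, h3, _, _, h4⟩
        exact ⟨Φ.inv_mem h1, Perm.inv_eq_iff_eq.2 h2.symm, _, Γ₁.inv_mem h3, _, _,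
          h4.symm.cast rfl rfl rfl rfl (by simp)⟩ }
  have h1 : ∀ φ ∈ Ψ, ∀ γ : Gl F, Semi γ φ → ∃ ν₁ ν₂, Sim6 γ false ν₁ ν₂ 1 φ := by
    rintro φ ⟨-, -, δ, -, _, _, h2⟩ γ hγ
    rw [hγ.unique h2.semi]
    exact ⟨_, _, h2⟩
  refine ⟨Ψ, ⟨⟨?_, fun γ hγ => ?_⟩, fun φ hφ hs => ?_⟩, fun φ hφ => hφ.1, h1⟩
  · rintro φ ⟨-, -, γ, h2, _, _, h3⟩
    exact ⟨γ, h2, h3.semi⟩
  · obtain ⟨φ, h2, h3⟩ := h.ov.onto γ (hle hγ)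
    obtain ⟨_, _, l, h4⟩ := sim_false h hi h2 h3
    obtain ⟨c, hc⟩ := hy φ h2 γ hγ h3
    have h5 : c ≠ 0 := fun h5 => h3.ne_zero (inl_ne h0) (by rw [hc, h5, zero_smul])
    have h6 := h4.ne.2.2
    have h7 := ((sim6_one.2 (sim6_scal (z := zs6 c⁻¹ (c / l) (inv_ne_zero h5) (div_ne_zero h5 h6))
      fun _ => rfl)).comp h4).cast (one_mul γ) rfl rfl rfl (l' := 1) (by simp; field_simp)
    refine ⟨zs6 c⁻¹ (c / l) (inv_ne_zero h5) (div_ne_zero h5 h6) * φ,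
      ⟨Φ.mul_mem (h.sat (zs6_mem _ _ _ _)) h2, ?_, γ, hγ, _, _, h7⟩, h7.semi⟩
    rw [Perm.mul_apply, hc]
    exact Prod.ext (inv_smul_smul₀ h5 y) (by simp [zs6])
  · obtain ⟨s, t, h2⟩ := mem_Z6.1 (h.lin φ hφ.1 hs)
    obtain ⟨_, _, h3⟩ := h1 φ hφ 1 hs
    have h4 : s = 1 := smul_left_injective F h0
      ((congrArg Prod.fst ((h2 _).symm.trans hφ.2.1)).trans (one_smul F y).symm)
    exact h3.ext_fst (φ' := (1 : Perm (V6 A B C))) sim6_id fun x => by simp [h2, h4]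

theorem GS.tr (h : GS Γ₁ Φ Ψ) {ψ : V6 A' B' C' ≃ V6 A B C} {ν₁ ν₂ : F}
    (hψ : Sim6 id false ν₁ ν₂ 1 ψ) : GS Γ₁ (tr ψ Φ) (tr ψ Ψ) where
  toGen := h.toGen.tr hψ.semi
  le φ hφ := h.le hφ
  sim φ hφ γ hγ := by
    obtain ⟨_, _, h1⟩ := h.sim (ψ.permCongr φ) hφ γ ((semi_congr hψ.semi).2 hγ)
    have h2 := (((sim6_one.2 hψ).symm.comp h1).comp (sim6_one.2 hψ)).cast (γ' := γ) (ε' := false)
      (l' := 1) (by simp) (by simp) rfl rfl (by simp)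
    have h3 : (ψ.symm ∘ ψ.permCongr φ) ∘ ψ = φ := funext fun x => by simp
    rw [h3] at h2
    exact ⟨_, _, h2⟩

theorem GS.sim' (h : GS Γ₁ Φ Ψ) (hφ : φ ∈ Ψ) : ∃ γ ∈ Γ₁, ∃ ν₁ ν₂, Sim6 γ false ν₁ ν₂ 1 φ := by
  obtain ⟨γ, h1, h2⟩ := h.ov.semi φ hφ
  exact ⟨γ, h1, h.sim φ hφ γ h2⟩

theorem GS.inl (h : GS Γ₁ Φ Ψ) : ∀ φ ∈ Ψ, ∀ x, ∃ x',
    φ (LinearMap.inl F (Alb A B C) (Alb A B C) x) = LinearMap.inl F (Alb A B C) (Alb A B C) x' :=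
  fun _ hφ x => by
    obtain ⟨_, -, _, _, h1⟩ := h.sim' hφ
    exact ⟨_, h1.inl x⟩

theorem GS.inr (h : GS Γ₁ Φ Ψ) : ∀ φ ∈ Ψ, ∀ x, ∃ x',
    φ (LinearMap.inr F (Alb A B C) (Alb A B C) x) = LinearMap.inr F (Alb A B C) (Alb A B C) x' :=
  fun _ hφ x => by
    obtain ⟨_, -, _, _, h1⟩ := h.sim' hφ
    exact ⟨_, h1.inr x⟩

/-- On the first summand, the elements over `Γ₁` are multiples of the elements of `Ψ`. -/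
theorem GS.exists (h : GS Γ₁ Φ Ψ) (hΦ : Dat6 Γ Φ) (hφ : φ ∈ Φ) (hγ : γ ∈ Γ₁) (hs : Semi γ φ) :
    ∃ φ₀ ∈ Ψ, Semi γ φ₀ ∧ ∃ s : F, s ≠ 0 ∧ ∀ x, φ (x, 0) = s • φ₀ (x, 0) := by
  obtain ⟨φ₀, h1, h2⟩ := h.ov.onto γ hγ
  obtain ⟨z, h3, rfl⟩ := hΦ.exists_Z6 (h.le h1) hφ h2 hs
  obtain ⟨s, t, h4⟩ := mem_Z6.1 h3
  obtain ⟨_, _, h5⟩ := h.sim _ h1 γ h2
  refine ⟨φ₀, h1, h2, s, (ne_of_scal6 h4).1, fun x => ?_⟩
  rw [Perm.mul_apply, h4, h5.inl]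
  simp

theorem GS.uop_inl (h : GS Γ₁ Φ Ψ) {y z : Alb A B C} (hy : Fv Ψ (y, 0)) (hz : Fv Ψ (0, z)) :
    Fv Ψ (uop y z, 0) := fun φ hφ => by
  obtain ⟨_, -, _, _, h1⟩ := h.sim' hφ
  have h2 := h1.pr.uop y z
  rw [one_smul, show fs6 φ false y = y from congrArg Prod.fst (hy φ hφ),
    show sn6 φ false z = z from congrArg Prod.snd (hz φ hφ)] at h2
  rw [h1.inl, ← h2]

theorem GS.uop_inr (h : GS Γ₁ Φ Ψ) {y z : Alb A B C} (hy : Fv Ψ (0, y)) (hz : Fv Ψ (z, 0)) :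
    Fv Ψ (0, uop y z) := fun φ hφ => by
  obtain ⟨_, -, _, _, h1⟩ := h.sim' hφ
  have h2 := h1.pr.swap.uop y z
  rw [one_smul, show sn6 φ false y = y from congrArg Prod.snd (hy φ hφ),
    show fs6 φ false z = z from congrArg Prod.fst (hz φ hφ)] at h2
  rw [h1.inr, ← h2]

end gs

section nf

variable {F : Type} [Field F] [NumberField F] {A B C : Fˣ} {Γ Γ₁ : Subgroup (Gl F)}
  {Φ Ψ : Subgroup (Perm (V6 A B C))}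

/-- An element over `r` which preserves the fixed vectors of the first summand. -/
theorem GS.exists_p (h : GS Γ₁ Φ Ψ) (hΦ : Dat6 Γ Φ) {r : Gl F} (hr : r ∈ Γ)
    (hn : ∀ γ ∈ Γ₁, r⁻¹ * γ * r ∈ Γ₁) :
    ∃ p ∈ Φ, Semi r p ∧ ∀ x, Fv Ψ (x, 0) → Fv Ψ (p (x, 0)) := by
  obtain ⟨p, h1, h2⟩ := hΦ.ov.onto r hr
  obtain ⟨y, h3, h4⟩ := h.exists_ne LinearMap.inl_injective h.inl
  have h5 : ∀ φ ∈ Ψ, ∃ s : F, ∀ x, Fv Ψ (x, 0) → φ (p (x, 0)) = s • p (x, 0) := fun φ hφ => by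
    obtain ⟨γ, k1, k2⟩ := h.ov.semi φ hφ
    obtain ⟨φ₀, k3, -, s, -, k4⟩ := h.exists hΦ
      (Φ.mul_mem (Φ.mul_mem (Φ.inv_mem h1) (h.le hφ)) h1) (hn γ k1) ((h2.inv.mul k2).mul h2)
    refine ⟨r s, fun x hx => ?_⟩
    have k5 := k4 x
    rw [hx φ₀ k3, Perm.mul_apply, Perm.mul_apply, Perm.inv_eq_iff_eq] at k5
    rw [k5, h2.smul]
  have h6 := h2.ne_zero (inl_ne h3)
  obtain ⟨t, h7, h8⟩ := h.exists_smul h6 fun φ hφ => by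
    obtain ⟨s, hs⟩ := h5 φ hφ
    exact ⟨s, hs y h4⟩
  refine ⟨zs6 t t h7 h7 * p, Φ.mul_mem (hΦ.sat (zs6_mem _ _ _ _)) h1,
    Semi.lin_comp (f := p) (semi_Z6 (zs6_mem t t h7 h7)) h2, fun x hx φ hφ => ?_⟩
  obtain ⟨s, hs⟩ := h5 φ hφ
  obtain ⟨γ, -, k1⟩ := h.ov.semi φ hφ
  have k2 := h8 φ hφ
  rw [k1.smul, hs y h4, smul_smul] at k2
  change φ (t • p (x, 0)) = t • p (x, 0)
  rw [k1.smul, hs x hx, smul_smul, smul_left_injective F h6 k2]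

end nf

section lift

variable {F F' : Type} [Field F] [Field F'] [CharZero F] [CharZero F'] {ι : F →+* F'}
  {A B C : Fˣ} {A' B' C' : F'ˣ} {Γ : Subgroup (Gl F)} {Γ' : Subgroup (Gl F')}
  {Φ Ψ : Subgroup (Perm (V6 A B C))}

/-- Extension of the field. -/
theorem GS.exists_lift (h : GS Γ Φ Ψ) (hΦ : Dat6 Γ Φ) (hE : Ext ι Γ Γ')
    (hP : Par ι A B C A' B' C') : ∃ Φ' Ψ' : Subgroup (Perm (V6 A' B' C')), Dat6 Γ' Φ' ∧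
      GS Γ' Φ' Ψ' ∧ (∀ v, Fv Ψ v → Fv Ψ' (j6 ι v)) ∧ ∀ v', Fv Ψ' v' → ∃ v, Fv Ψ v ∧ j6 ι v = v' := by
  obtain ⟨Φ', h1, -, h2⟩ := hΦ.exists_lift hE hP
  have hj := bc_j6 ι (A := A) (B := B) (C := C) (A' := A') (B' := B') (C' := C')
  obtain ⟨Ψ', h3, h4, h5, -⟩ := exists_lifts (Z' := ⊥) hE hj h.ov
    (fun z hz => by rw [Subgroup.mem_bot.1 hz]; exact fun _ _ _ => rfl)
    fun _ _ _ _ _ _ z hz => by rw [Subgroup.mem_bot.1 hz]; simp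
  have h6 : ∀ φ' ∈ Ψ', ∃ φ ∈ Ψ, ∀ x, φ' (j6 ι x) = j6 ι (φ x) := fun φ' hφ' => by
    obtain ⟨-, φ, k1, z, k2, k3⟩ := h4.down φ' hφ'
    rw [Subgroup.mem_bot.1 k2] at k3
    exact ⟨φ, k1, k3⟩
  refine ⟨Φ', Ψ', h1, ⟨⟨h5, fun φ' hφ' hs => ?_⟩, fun φ' hφ' => ?_, fun φ' hφ' γ' hs => ?_⟩,
    fun v hv φ' hφ' => ?_, fun v' hv' => ?_⟩
  · obtain ⟨φ, k1, k2⟩ := h6 φ' hφ'
    obtain ⟨γ, -, k3⟩ := h.ov.semi φ k1
    obtain rfl : γ = 1 := over_unique (hj.over hj k3 (semi_one.2 hs) k2) fun _ => rfl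
    rw [h.lin φ k1 k3] at k2
    exact Equiv.ext (hj.ext (semi_one.2 hs) semi_id k2)
  · obtain ⟨φ, k1, k2⟩ := h6 φ' hφ'
    exact (h2 φ').2 ⟨h5.semi φ' hφ', φ, h.le k1, 1, Subgroup.one_mem _, k2⟩
  · obtain ⟨φ, k1, k2⟩ := h6 φ' hφ'
    obtain ⟨γ, -, _, _, k3⟩ := h.sim' k1
    exact ⟨_, _, (k3.up hP hP hs (hj.over hj k3.semi hs k2) k2).cast rfl rfl rfl rfl (map_one ι)⟩
  · obtain ⟨φ, k1, k2⟩ := h6 φ' hφ'
    rw [k2, hv φ k1]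
  · obtain ⟨v, rfl⟩ := hj.mem_range hE (y := v') fun γ' k1 _ c k2 k3 =>
      hv' c ((h3 c).2 ⟨⟨γ', k1, k2⟩, 1, Ψ.one_mem, 1, Subgroup.one_mem _, k3⟩)
    refine ⟨v, fun φ hφ => hj.inj ?_, rfl⟩
    obtain ⟨γ, k1, k2⟩ := h.ov.semi φ hφ
    obtain ⟨γ', k3, k4⟩ := hE.up γ k1
    obtain ⟨φ', k5, -, z, k6, k7⟩ := h4.up φ hφ γ k2 γ' k3 k4
    rw [Subgroup.mem_bot.1 k6] at k7
    exact (k7 v).symm.trans (hv' φ' k5)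

end lift

end Vale.Agent.P011N.Cl.EI
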