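import Vale.Agent.P011N.Cl.EI.Frm

/-!
The normal form of the inner forms of type `E₆`.
-/

namespace Vale.Agent.P011N.Cl.EI

open Vale.Agent.P011.MPQ Vale.Agent.P011.D4 Vale.Agent.P011.D4.Oct Vale.Agent.P011.E6 Equiv Module
open Vale.Agent.P011.E6.Alb

section gen

variable {F : Type} [Field F] [CharZero F] {A B C A' B' C' : Fˣ} {Γ Γ₁ : Subgroup (Gl F)}
  {Φ Ψ : Subgroup (Perm (V6 A B C))} {γ r : Gl F} {p : Perm (V6 A B C)}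

/-- The map permutes three lines. -/
def Pv (v : Fin 3 → Alb A B C) (φ : V6 A B C → V6 A B C) (π : Perm (Fin 3)) : Prop :=
  ∀ i, ∃ c : F, φ (v i, 0) = c • (v (π i), 0)

theorem Pv.mul {v : Fin 3 → Alb A B C} {φ φ' : Perm (V6 A B C)} {π π' : Perm (Fin 3)}
    (h : Pv v φ π) (hs : Semi γ φ) (h' : Pv v φ' π') : Pv v ⇑(φ * φ') (π * π') := fun i => by
  obtain ⟨c, hc⟩ := h' i
  obtain ⟨d, hd⟩ := h (π' i)
  exact ⟨γ c * d, by rw [Perm.mul_apply, hc, hs.smul, hd, smul_smul, Perm.mul_apply]⟩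

/-- The data of an inner form with a cyclic group of order three. -/
structure Cy (Γ Γ₁ : Subgroup (Gl F)) (Φ Ψ : Subgroup (Perm (V6 A B C))) (r : Gl F)
    (p : Perm (V6 A B C)) : Prop where
  dat : Dat6 Γ Φ
  gs : GS Γ₁ Φ Ψ
  inn : ∀ φ ∈ Φ, ∀ x, (φ (x, 0)).2 = 0
  mem : p ∈ Φ
  semi : Semi r p
  fv : ∀ x, Fv Ψ (x, 0) → Fv Ψ (p (x, 0))
  cube : r ^ 3 ∈ Γ₁
  cos : ∀ γ ∈ Γ, γ ∈ Γ₁ ∨ r⁻¹ * γ ∈ Γ₁ ∨ r * γ ∈ Γ₁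

theorem Cy.all (h : Cy Γ Γ₁ Φ Ψ r p) {φ : Perm (V6 A B C)} (hφ : φ ∈ Φ) :
    ∃ π, ∀ v, (∀ φ ∈ Ψ, Pv v φ 1) → Pv v p cyc → Pv v φ π := by
  have h1 : ∀ φ ∈ Φ, ∀ γ ∈ Γ₁, Semi γ φ → ∀ v, (∀ φ ∈ Ψ, Pv v φ 1) → Pv v φ 1 := by
    intro φ hφ γ hγ hs v hv i
    obtain ⟨φ₀, k1, -, s, -, k2⟩ := h.gs.exists h.dat hφ hγ hs
    obtain ⟨c, hc⟩ := hv φ₀ k1 i
    exact ⟨s * c, by rw [k2, hc, smul_smul]⟩
  obtain ⟨γ, h2, h3⟩ := h.dat.ov.semi φ hφ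
  have h4 := Φ.mul_mem (Φ.inv_mem h.mem) hφ
  have h5 := h.semi.inv.mul h3
  rcases h.cos γ h2 with h6 | h6 | h6
  · exact ⟨1, fun v hv _ => h1 φ hφ γ h6 h3 v hv⟩
  · refine ⟨cyc * 1, fun v hv hp => ?_⟩
    rw [← mul_inv_cancel_left p φ]
    exact hp.mul h.semi (h1 _ h4 _ h6 h5 v hv)
  · refine ⟨cyc * (cyc * 1), fun v hv hp => ?_⟩
    rw [← mul_inv_cancel_left p φ, ← mul_inv_cancel_left p (p⁻¹ * φ)]
    refine hp.mul h.semi (hp.mul h.semi (h1 _ (Φ.mul_mem (Φ.inv_mem h.mem) h4) _ ?_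
      (h.semi.inv.mul h5) v hv))
    convert Γ₁.mul_mem (Γ₁.inv_mem h.cube) h6 using 1
    group

theorem Cy.three (h : Cy Γ Γ₁ Φ Ψ r p) :
    ∃ s : F, ∀ x, Fv Ψ (x, 0) → p (p (p (x, 0))) = s • (x, 0) := by
  obtain ⟨φ₀, k1, -, s, -, k2⟩ := h.gs.exists h.dat (Φ.mul_mem h.mem (Φ.mul_mem h.mem h.mem))
    (pow_three r ▸ h.cube) (h.semi.mul (h.semi.mul h.semi))
  exact ⟨s, fun x hx => (k2 x).trans (by rw [hx φ₀ k1])⟩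

theorem Cy.sim (h : Cy Γ Γ₁ Φ Ψ r p) : ∃ ν₁ ν₂ l, Sim6 r false ν₁ ν₂ l p :=
  sim_false h.dat h.inn h.mem h.semi

/-- The orbit of a fixed vector. -/
theorem Cy.orb (h : Cy Γ Γ₁ Φ Ψ r p) {v : Fin 3 → Alb A B C} (h0 : Fv Ψ (v 0, 0))
    (h1 : p (v 0, 0) = (v 1, 0)) (h2 : p (v 1, 0) = (v 2, 0)) :
    (∀ φ ∈ Ψ, Pv v φ 1) ∧ Pv v p cyc := by
  have h3 := h1 ▸ h.fv _ h0
  have h4 := h2 ▸ h.fv _ h3
  obtain ⟨s, hs⟩ := h.three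
  refine ⟨fun φ hφ i => ⟨1, ?_⟩, fun i => ?_⟩
  · rw [one_smul]
    fin_cases i
    exacts [h0 φ hφ, h3 φ hφ, h4 φ hφ]
  · fin_cases i
    · exact ⟨1, h1.trans (one_smul F _).symm⟩
    · exact ⟨1, h2.trans (one_smul F _).symm⟩
    · exact ⟨s, (congrArg p (h2.symm.trans (congrArg p h1.symm))).trans (hs _ h0)⟩

theorem Cy.tr (h : Cy Γ Γ₁ Φ Ψ r p) {ψ : V6 A' B' C' ≃ V6 A B C} {ν₁ ν₂ : F}
    (hψ : Sim6 id false ν₁ ν₂ 1 ψ) :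
    Cy Γ Γ₁ (tr ψ Φ) (tr ψ Ψ) r (ψ.symm.permCongr p) where
  dat := h.dat.tr hψ
  gs := h.gs.tr hψ
  inn := (h.dat.tr_inner hψ).2 h.inn
  mem := symm_mem_tr.2 h.mem
  semi := (semi_congr hψ.semi.symm_lin).2 h.semi
  fv x hx := by
    rw [fv_tr, (sim6_one.2 hψ).inl] at hx
    simpa [fv_tr, (sim6_one.2 hψ).inl] using h.fv _ hx
  cube := h.cube
  cos := h.cos

theorem Cy.fx (h : Cy Γ Γ₁ Φ Ψ r p) {e : F} (h1 : Fx Γ₁ e) (h2 : r e = e) : Fx Γ e := by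
  intro γ hγ
  rcases h.cos γ hγ with h3 | h3 | h3
  · exact h1 γ h3
  · rw [← mul_inv_cancel_left r γ, AlgEquiv.mul_apply, h1 _ h3, h2]
  · exact r.injective ((h1 _ h3).trans h2.symm)

/-- The conclusion. -/
def Con (Γ Γ₁ : Subgroup (Gl F)) (Φ : Subgroup (Perm (V6 (1 : Fˣ) 1 1))) (r : Gl F) : Prop :=
  ∃ a b c : Fˣ, Fx Γ (a : F) ∧ Fx Γ (b : F) ∧ Fx Γ (c : F) ∧
    ∃ ψ : V6 a b c ≃ V6 (1 : Fˣ) 1 1, (∃ ν₁ ν₂ l, Sim6 id false ν₁ ν₂ l ψ) ∧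
      (∀ φ ∈ Φ, ∀ γ ∈ Γ₁, Semi γ φ →
        ∃ l : F, ∀ x, φ (ψ (x, 0)) = ψ (l • jA γ x, 0)) ∧
      (r ∉ Γ₁ → ∃ e : F, e ≠ 0 ∧ Fx Γ e ∧ ∀ φ ∈ Φ, Semi r φ →
        ∃ l : F, ∀ x, φ (ψ (x, 0)) = ψ (l • ph6 r e x, 0))

theorem Con.of_tr {Φ : Subgroup (Perm (V6 (1 : Fˣ) 1 1))} {g : V6 (1 : Fˣ) 1 1 ≃ V6 (1 : Fˣ) 1 1}
    {ν₁ ν₂ l : F} (hg : Sim6 id false ν₁ ν₂ l g) (h : Con Γ Γ₁ (tr g Φ) r) : Con Γ Γ₁ Φ r := by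
  obtain ⟨a, b, c, ha, hb, hc, ψ, ⟨_, _, _, h1⟩, h2, h3⟩ := h
  refine ⟨a, b, c, ha, hb, hc, ψ.trans g, ⟨_, _, _, ((sim6_one.2 hg).comp (sim6_one.2 h1)).cast
    (γ' := 1) (mul_one _) rfl rfl rfl rfl⟩, fun φ hφ γ hγ hs => ?_, fun hr => ?_⟩
  · obtain ⟨s, h4⟩ := h2 _ (symm_mem_tr.2 hφ) γ hγ ((semi_congr hg.semi.symm_lin).2 hs)
    exact ⟨s, fun x => by simpa [Equiv.symm_apply_eq] using h4 x⟩
  · obtain ⟨e, h4, h5, h6⟩ := h3 hr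
    refine ⟨e, h4, h5, fun φ hφ hs => ?_⟩
    obtain ⟨s, h7⟩ := h6 _ (symm_mem_tr.2 hφ) ((semi_congr hg.semi.symm_lin).2 hs)
    exact ⟨s, fun x => by simpa [Equiv.symm_apply_eq] using h7 x⟩

theorem GS.con (h : GS Γ₁ Φ Ψ) (hΦ : Dat6 Γ Φ) {ψ : V6 A' B' C' ≃ V6 A B C} {ν₁ ν₂ l : F}
    (hψ : Sim6 id false ν₁ ν₂ l ψ)
    (h1 : ∀ φ ∈ Ψ, ∀ γ : Gl F, Semi γ φ → ∀ x, φ (ψ (x, 0)) = ψ (jA γ x, 0)) :
    ∀ φ ∈ Φ, ∀ γ ∈ Γ₁, Semi γ φ → ∃ l : F, ∀ x, φ (ψ (x, 0)) = ψ (l • jA γ x, 0) := by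
  intro φ hφ γ hγ hs
  obtain ⟨φ₀, k1, k2, s, -, k3⟩ := h.exists hΦ hφ hγ hs
  refine ⟨s, fun x => ?_⟩
  rw [smul_inl, (semi_one.2 hψ.semi).smul, ← h1 φ₀ k1 γ k2, (sim6_one.2 hψ).inl, k3]
  rfl

end gen

variable {F : Type} [Field F] [NumberField F] {Γ Γ₁ : Subgroup (Gl F)} {r : Gl F}

theorem exists_ph {A B C : Fˣ} {Ψ : Subgroup (Perm (V6 A B C))} {p : Perm (V6 A B C)}
    (h : Gen Γ₁ Ψ) (h1 : ∀ φ ∈ Ψ, ∀ γ : Gl F, Semi γ φ → Nf γ 1 φ)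
    (h2 : Nf r cyc p) (h3 : ∀ x, Fv Ψ (x, 0) → Fv Ψ (p (x, 0))) {s : F}
    (h4 : ∀ x, Fv Ψ (x, 0) → p (p (p (x, 0))) = s • (x, 0)) :
    ∃ (m : Fin 3 → F) (e : F), (∀ i, m i ≠ 0) ∧ e ≠ 0 ∧ Fx Γ₁ e ∧ r e = e ∧
      Fv Ψ (un A B C m, 0) ∧ p (un A B C m, 0) = (un A B C (m * ![e, 1, 1]), 0) := by
  obtain ⟨t, h5, h6⟩ := h.exists_ne
    (L := LinearMap.inl F _ _ ∘ₗ un A B C ∘ₗ LinearMap.single F (fun _ => F) 0)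
    (LinearMap.inl_injective.comp (un_inj.comp (Pi.single_injective (M := fun _ => F) 0)))
    fun φ hφ t => by
      obtain ⟨γ, -, k1⟩ := h.ov.semi φ hφ
      obtain ⟨l, -, k2⟩ := (h1 φ hφ γ k1).un
      refine ⟨l 0 * γ t, (k2 _).trans (congrArg (fun m => (un A B C m, 0)) ?_)⟩
      funext i
      fin_cases i <;> simp
  obtain ⟨l, h7, h8⟩ := h2.un
  have h0 : cyc⁻¹ 0 = 2 ∧ cyc⁻¹ 1 = 0 ∧ cyc⁻¹ 2 = 1 := by decide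
  have h9 : ∀ x y z, p (un A B C ![x, y, z], 0) =
      (un A B C ![l 0 * r z, l 1 * r x, l 2 * r y], 0) := fun x y z => by
    rw [h8]
    congr 2
    funext i
    fin_cases i <;> simp [h0]
  have k0 : Fv Ψ (un A B C ![t, 0, 0], 0) := by
    rw [show ![t, 0, 0] = Pi.single 0 t from funext fun i => by fin_cases i <;> simp]
    exact h6
  have k1 := h3 _ k0
  have k4 := h4 _ k0
  rw [h9, map_zero, mul_zero, mul_zero] at k1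
  have k2 := h3 _ k1
  have k5 := h4 _ k1
  rw [h9, map_zero, mul_zero, mul_zero] at k2
  have k3 := h3 _ k2
  rw [h9, map_zero, mul_zero, mul_zero] at k3
  simp only [h9, map_zero, mul_zero, ← smul_inl, ← map_smul] at k4 k5
  have k6 := congrFun (un_inj (congrArg Prod.fst k4)) 0
  have k7 := congrFun (un_inj (congrArg Prod.fst k5)) 1
  simp only [Matrix.cons_val_zero, Matrix.cons_val_one, Pi.smul_apply, smul_eq_mul] at k6 k7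
  have k8 : ∀ i {x}, x ≠ 0 → l i * r x ≠ 0 := fun i _ hx =>
    mul_ne_zero (h7 i) ((map_ne_zero r).2 hx)
  refine ⟨![t, l 1 * r t, l 2 * r (l 1 * r t)], s, fun i => ?_, fun k9 => ?_,
    h.fx (x := (un A B C ![t, 0, 0], 0)) (fun k9 => h5 (congrFun (un_inj
      ((congrArg Prod.fst k9).trans (map_zero _).symm)) 0)) k0 ?_, ?_, ?_, ?_⟩
  · fin_cases i
    exacts [h5, k8 1 h5, k8 2 (k8 1 h5)]
  · exact k8 0 (k8 2 (k8 1 h5)) (by rw [k6, k9, zero_mul])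
  · convert k3 using 1
    rw [k6, ← smul_inl, ← map_smul]
    simp
  · rw [k6, map_mul] at k7
    exact mul_right_cancel₀ (k8 1 h5) (by linear_combination k7)
  · convert h.add (h.add k0 k1) k2 using 1
    simp [← map_add]
  · rw [h9, k6]
    congr 2
    funext i
    fin_cases i <;> simp [mul_comm]

variable {Φ Ψ : Subgroup (Perm (V6 (1 : Fˣ) 1 1))} {p : Perm (V6 (1 : Fˣ) 1 1)}

theorem Cy.std (hFR : FRStmt) (h : Cy Γ Γ₁ Φ Ψ r p) (h1 : ∀ φ ∈ Ψ, Pe φ 1) (h2 : Pe p cyc) :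
    Con Γ Γ₁ Φ r := by
  obtain ⟨_, _, _, h3⟩ := h.sim
  obtain ⟨u, h4, h5⟩ := h.gs.exists_ne (L := LinearMap.inl F _ _ ∘ₗ oo 0)
    (LinearMap.inl_injective.comp (oo_inj 0)) fun φ hφ u => by
      obtain ⟨γ, -, _, _, k1⟩ := h.gs.sim' hφ
      obtain ⟨u', k2⟩ := (h1 φ hφ).oo k1 0 u
      exact ⟨u', (k1.inl _).trans (congrArg (fun x => (x, 0)) k2)⟩
  obtain ⟨v, h6⟩ := h2.oo h3 0 u
  obtain ⟨w, h7⟩ := h2.oo h3 1 v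
  have h8 : ∀ {i j x y}, x ≠ 0 → fs6 p false (oo i x) = oo j y → y ≠ 0 := by
    rintro i j x _ hx k1 rfl
    exact hx (oo_inj i ((h3.pr.b1.1 (k1.trans ((map_zero _).trans h3.pr.s1.zero.symm))).trans
      (map_zero _).symm))
  obtain ⟨h9, h10⟩ := h.orb (v := fun i => oo i (![u, v, w] i)) h5
    ((h3.inl _).trans (congrArg (fun x => (x, 0)) h6))
    ((h3.inl _).trans (congrArg (fun x => (x, 0)) h7))
  obtain ⟨a, b, c, ha, hb, hc, ψ, ⟨_, _, _, k1⟩, k2⟩ := frc hFR h.dat h.inn (y := ![u, v, w])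
    (fun i => by fin_cases i; exacts [h4, h8 h4 h6, h8 (h8 h4 h6) h7]) fun φ hφ => by
      obtain ⟨π, k1⟩ := h.all hφ
      exact ⟨π, k1 ee h1 h2, k1 _ h9 h10⟩
  obtain ⟨s, hs⟩ := h.three
  have k0 := sim6_one.2 k1
  have k3 : ∀ φ ∈ Cl.tr ψ Ψ, ∀ γ : Gl F, Semi γ φ → Nf γ 1 φ := fun φ hφ γ hγ =>
    k2 φ (h.gs.le hφ) γ 1 hγ (h1 _ hφ)
  have k4 := (semi_congr k1.semi.symm_lin).2 h.semi
  have k5 : Nf r cyc (ψ.symm.permCongr p) := k2 _ (symm_mem_tr.2 h.mem) r cyc k4 (by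
    rwa [← Equiv.permCongr_symm, Equiv.apply_symm_apply])
  obtain ⟨m, e, k6, k7, k8, k9, k10, k11⟩ := exists_ph (h.gs.toGen.tr k1.semi) k3 k5
    (fun x hx => by
      rw [fv_tr, k0.inl] at hx
      simpa [fv_tr, k0.inl] using h.fv _ hx) (s := s) fun x hx => by
      rw [fv_tr, k0.inl] at hx
      apply ψ.injective
      rw [k0.semi.smul]
      simpa [k0.inl] using hs _ hx
  obtain ⟨ψ', ⟨_, _, _, k12⟩, k13⟩ := exists_tor' k1 k6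
  refine ⟨a, b, c, ha, hb, hc, ψ', ⟨_, _, _, k12⟩, h.gs.con h.dat k12 fun φ hφ γ hγ x => ?_,
    fun _ => ⟨e, k7, h.fx k8 k9, fun φ hφ hr => ?_⟩⟩
  · obtain ⟨φ, rfl⟩ := ψ.permCongr.surjective φ
    rw [k13, k13, ← st6_id, ← (k3 φ hφ γ ((semi_congr k1.semi).1 hγ)).tor (k10 φ hφ)]
    simp
  · obtain ⟨z, k14, rfl⟩ := h.dat.exists_Z6 h.mem hφ h.semi hr
    obtain ⟨t, _, k15⟩ := mem_Z6.1 k14
    refine ⟨t, fun x => ?_⟩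
    have k16 : p (ψ' (x, 0)) = ψ' (ph6 r e x, 0) := by
      rw [k13, k13, ← tor_cyc, tor_tor, ← k5.tor k11]
      simp
    rw [Perm.mul_apply, k16, k15, smul_inl, (semi_one.2 k12.semi).smul, (sim6_one.2 k12).inl]
    simp

/-- **The inner forms.** -/
theorem eiStmt (hFR : FRStmt) : EIStmt := by
  rintro F _ _ Γ Γ₁ Φ h hi hle ⟨y, h0, hy⟩ r hr hn h3 hc
  obtain ⟨Ψ, hΨ⟩ := exists_gs h hi hle h0 hy
  obtain ⟨x₀, h4, h5, h6⟩ := r6 hFR (h.res hle) hΨ.res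
  obtain ⟨z, h7, h8, h9⟩ := hΨ.exists_inr h4 h5 h6
  change Con Γ Γ₁ Φ r
  by_cases hr1 : r ∈ Γ₁
  · obtain rfl : Γ₁ = Γ := le_antisymm hle fun γ hγ => by
      rcases hc γ hγ with k1 | k1 | k1
      exacts [k1, (Γ₁.mul_mem_cancel_left (Γ₁.inv_mem hr1)).1 k1, (Γ₁.mul_mem_cancel_left hr1).1 k1]
    obtain ⟨x, k1, k2, k3⟩ := hΨ.exists_frame h7 h8 h9
    obtain ⟨g, k4, c, k5⟩ := exists_std k1 k2
    have k6 : ∀ φ ∈ tr g Ψ, Pe φ 1 := fun φ hφ i => by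
      obtain ⟨γ, -, k6⟩ := (hΨ.tr k4).ov.semi φ hφ
      exact line_tr k4.semi k6 (k5 i).2 (k5 i).2 (k5 i).1 ⟨1, by rw [one_smul]; exact k3 i _ hφ⟩
    obtain ⟨a, b, c, ha, hb, hc, ψ, ⟨_, _, _, k7⟩, k8⟩ := frc_gs hFR (h.tr k4) (hΨ.tr k4)
      fun φ hφ => ⟨1, k6 φ hφ⟩
    exact Con.of_tr k4 ⟨a, b, c, ha, hb, hc, ψ, ⟨_, _, _, k7⟩, (hΨ.tr k4).con (h.tr k4) k7
      fun φ hφ γ hγ x => by rw [k8 φ hφ γ 1 hγ (k6 φ hφ), st6_id], fun h => absurd hr1 h⟩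
  · obtain ⟨p, k1, k2, k3⟩ := hΨ.exists_p h hr fun γ hγ => by
      convert hn _ (hn _ (Γ₁.mul_mem (Γ₁.mul_mem (Γ₁.inv_mem h3) hγ) h3)) using 1
      group
    have k4 : Cy Γ Γ₁ Φ Ψ r p := ⟨h, hΨ, hi, k1, k2, k3, h3, hc⟩
    obtain ⟨_, _, _, k5⟩ := k4.sim
    obtain ⟨x, k6, k7, k8⟩ := hΨ.exists_cyc h7 h8 h9 hr1 h3 k5.pr
    obtain ⟨k9, k10⟩ := k4.orb (v := ![x, fs6 p false x, fs6 p false (fs6 p false x)]) k8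
      (k5.inl _) (k5.inl _)
    obtain ⟨g, k11, c, k12⟩ := exists_std (x := ![x, fs6 p false x, fs6 p false (fs6 p false x)])
      (fun i => by
        fin_cases i
        exacts [k6, (k5.pr.adj_iff _).2 k6, (k5.pr.adj_iff _).2 ((k5.pr.adj_iff _).2 k6)]) k7
    have k13 := k4.tr k11
    refine Con.of_tr k11 (k13.std hFR (fun φ hφ i => ?_) fun i => ?_)
    · obtain ⟨γ, -, k14⟩ := k13.gs.ov.semi φ hφ
      exact line_tr k11.semi k14 (k12 i).2 (k12 i).2 (k12 i).1 (k9 _ hφ i)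
    · refine line_tr k11.semi k13.semi (k12 i).2 (k12 _).2 (k12 _).1 ?_
      rw [← Equiv.permCongr_symm, Equiv.apply_symm_apply]
      exact k10 i

end Vale.Agent.P011N.Cl.EI
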