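import Vale.Agent.P011N.Cl.EI.Tor
import Mathlib.Algebra.CubicDiscriminant

/-!
Albert algebras over number fields are reduced: there is a fixed vector of rank one.
-/

namespace Vale.Agent.P011N.Cl.EI

open Vale.Agent.P011.MPQ Vale.Agent.P011.D4 Vale.Agent.P011.D4.Oct Vale.Agent.P011.E6 Equiv Module
open Vale.Agent.P011.E6.Alb

theorem adj_jA {F F' R : Type} [Field F] [Field F'] {A B C : Fˣ} {A' B' C' : F'ˣ} [FunLike R F F']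
    [RingHomClass R F F'] {ι : R} (h : Par ι A B C A' B' C') (x : Alb A B C) :
    adj (jA ι x : Alb A' B' C') = jA ι (adj x) := by
  ext1 <;> simp only [adj, jA, norm_jO h, map_sub, map_mul, jO_sub, jO_star, jO_mul h, jO_smul]

theorem pf_discr {F U : Type} [Field F] [AddCommGroup U] [Module F U] {a b c d : U → F}
    (ha : a ∈ PF F U) (hb : b ∈ PF F U) (hc : c ∈ PF F U) (hd : d ∈ PF F U) :
    (fun x => Cubic.discr ⟨a x, b x, c x, d x⟩) ∈ PF F U := by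
  have h : (fun x => Cubic.discr ⟨a x, b x, c x, d x⟩) = b ^ 2 * c ^ 2 - 4 * a * c ^ 3 -
    4 * b ^ 3 * d - 27 * a ^ 2 * d ^ 2 + 18 * a * b * c * d := rfl
  rw [h]
  generalize PF F U = S at ha hb hc hd
  apply_rules [add_mem, sub_mem, mul_mem, pow_mem, ofNat_mem]

section gen

variable {F : Type} [Field F] [CharZero F] {A B C : Fˣ} {Γ Γ₁ : Subgroup (Gl F)}
  {Φ Ψ : Subgroup (Perm (V6 A B C))} {γ : Gl F}

/-- The cubic polynomial of a pair. -/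
def cb (u y : Alb A B C) : Cubic F := ⟨cub u, -tf (adj u) y, tf u (adj y), -cub y⟩

theorem pf_cb {U : Type} [AddCommGroup U] [Module F U] {f g : U → Alb A B C} (hf : PM F f)
    (hg : PM F g) : (fun x => (cb (f x) (g x)).discr) ∈ PF F U :=
  pf_discr hf.acub (neg_mem (hf.aadj.atf hg)) (hf.atf hg.aadj) (neg_mem hg.acub)

theorem GS.res (h : GS Γ₁ Φ Ψ) : GS Γ₁ (res Φ Γ₁) Ψ :=
  ⟨h.toGen, fun φ hφ => ⟨h.le hφ, h.ov.semi φ hφ⟩, h.sim⟩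

theorem GS.inner (h : GS Γ Φ Ψ) (hΦ : Dat6 Γ Φ) : ∀ φ ∈ Φ, ∀ x, (φ (x, 0)).2 = 0 := by
  intro φ hφ x
  obtain ⟨γ, h1, h2⟩ := hΦ.ov.semi φ hφ
  obtain ⟨φ₀, h3, h4, s, -, h5⟩ := h.exists hΦ hφ h1 h2
  obtain ⟨_, _, h6⟩ := h.sim _ h3 γ h4
  rw [h5, h6.inl]
  exact smul_zero s

theorem line_tr {V W : Type} [AddCommGroup V] [Module F V] [AddCommGroup W] [Module F W]
    {ψ : V ≃ W} (hψ : Semi (id : F → F) ψ) {φ : Perm V} (hφ : Semi γ φ) {v w : V} {v' w' : W}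
    {c d : F} (hv : ψ v = c • v') (hw : ψ w = d • w') (hd : d ≠ 0)
    (h : ∃ s : F, ψ.permCongr φ v' = s • w') : ∃ s : F, φ v = s • w := by
  obtain ⟨s, hs⟩ := h
  refine ⟨γ c * s * d⁻¹, ψ.injective ?_⟩
  rw [(semi_one.2 hψ).smul, hw, smul_smul, AlgEquiv.one_apply, inv_mul_cancel_right₀ hd, mul_smul,
    ← hs, ← ((semi_congr hψ).2 hφ).smul, ← hv]
  simp

theorem exists_std {x : Fin 3 → Alb A B C} (hx : ∀ i, adj (x i) = 0)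
    (h : tf (x 0) (cross (x 1) (x 2)) ≠ 0) : ∃ ψ : V6 A B C ≃ V6 A B C, Sim6 id false 1 1 1 ψ ∧
      ∃ c : Fin 3 → F, ∀ i, c i ≠ 0 ∧ ψ (ee i, 0) = c i • (x i, 0) := by
  obtain ⟨g, h1, c, h2, h3⟩ := frame_lemma hx h
  have h4 := mem_S6.1 ((S6 A B C).inv_mem h1)
  refine ⟨g⁻¹, h4, fun i => (c i)⁻¹, fun i => ⟨inv_ne_zero (h2 i), ?_⟩⟩
  rw [eq_inv_smul_iff₀ (h2 i), ← Perm.inv_eq_iff_eq.2 (h3 i).symm, smul_inl,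
    (semi_one.2 h4.semi).smul]
  rfl

end gen

variable {F : Type} [Field F] [NumberField F] {Γ : Subgroup (Gl F)}
  {Φ Ψ : Subgroup (Perm (V6 (1 : Fˣ) 1 1))}

theorem exists_tor' {a b c : Fˣ} {ψ : V6 a b c ≃ V6 (1 : Fˣ) 1 1} {ν₁ ν₂ l : F}
    (h : Sim6 id false ν₁ ν₂ l ψ) {m : Fin 3 → F} (hm : ∀ i, m i ≠ 0) :
    ∃ ψ' : V6 a b c ≃ V6 (1 : Fˣ) 1 1, (∃ ν₁ ν₂ l, Sim6 id false ν₁ ν₂ l ψ') ∧
      ∀ x, ψ' (x, 0) = ψ (tor m x, 0) := by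
  obtain ⟨T, ⟨_, _, h1⟩, h2⟩ := exists_tor (A := a) (B := b) (C := c) hm
  exact ⟨T.trans ψ, ⟨_, _, _, ((sim6_one.2 h).comp (sim6_one.2 h1)).cast (γ' := 1) (mul_one _)
    rfl rfl rfl rfl⟩, fun x => congrArg ψ (h2 x)⟩

theorem frc_gs (hFR : FRStmt) (h : Dat6 Γ Φ) (hΨ : GS Γ Φ Ψ) (hp : ∀ φ ∈ Ψ, ∃ π, Pe φ π) :
    ∃ a b c : Fˣ, Fx Γ (a : F) ∧ Fx Γ (b : F) ∧ Fx Γ (c : F) ∧
      ∃ ψ : V6 a b c ≃ V6 (1 : Fˣ) 1 1, (∃ ν₁ ν₂ l, Sim6 id false ν₁ ν₂ l ψ) ∧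
        ∀ φ ∈ Ψ, ∀ (γ : Gl F) π, Semi γ φ → Pe φ π →
          ∀ x, φ (ψ (x, 0)) = ψ (st6 γ π x, 0) := by
  obtain ⟨w, h1, h2⟩ := hΨ.exists_all LinearMap.inl_injective hΨ.inl
    (f := fun i w => norm (odA w i)) (fun i => (PM.id.ax i).onorm)
    fun i => ⟨mkA 0 1, by simp [odA_mkA]⟩
  obtain ⟨a, b, c, ha, hb, hc, ψ, ⟨_, _, _, h3⟩, h4⟩ := frc hFR h (hΨ.inner h) (y := odA w)
    (fun i h0 => h2 i (by rw [h0, Oct.norm_zero])) fun φ hφ => by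
      obtain ⟨γ, k1, k2⟩ := h.ov.semi φ hφ
      obtain ⟨φ₀, k3, k4, s, -, k5⟩ := hΨ.exists h hφ k1 k2
      obtain ⟨π, k6⟩ := hp φ₀ k3
      obtain ⟨_, _, k7⟩ := hΨ.sim _ k3 γ k4
      refine ⟨π, fun i => ?_, fun i => ⟨s, ?_⟩⟩
      · obtain ⟨t, ht⟩ := k6 i
        exact ⟨s * t, by rw [k5, ht, smul_smul]⟩
      · rw [k5, k6.od k7, show fs6 φ₀ false w = w from congrArg Prod.fst (h1 φ₀ k3)]
  obtain ⟨m, h5, h6⟩ := exists_un (hΨ.toGen.tr h3.semi) fun φ hφ γ hγ => by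
    obtain ⟨π, k1⟩ := hp _ hφ
    exact ⟨π, h4 φ (hΨ.le hφ) γ π hγ k1⟩
  obtain ⟨ψ', h7, h8⟩ := exists_tor' h3 h6
  refine ⟨a, b, c, ha, hb, hc, ψ', h7, fun φ hφ γ π hγ k1 x => ?_⟩
  obtain ⟨φ, rfl⟩ := ψ.permCongr.surjective φ
  rw [h8, h8, ← (h4 φ (hΨ.le hφ) γ π ((semi_congr h3.semi).1 hγ) k1).tor (h5 φ hφ)]
  simp

theorem r6std (hFR : FRStmt) (h : Dat6 Γ Φ) (hΨ : GS Γ Φ Ψ) (hp : ∀ φ ∈ Ψ, ∃ π, Pe φ π) :
    ∃ x, x ≠ 0 ∧ adj x = 0 ∧ Fv Ψ (x, 0) := by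
  obtain ⟨a, b, c, -, -, -, ψ, ⟨_, _, _, h1⟩, h2⟩ := frc_gs hFR h hΨ hp
  have h3 := sim6_one.2 h1
  refine ⟨fs6 ψ false (mkA 1 1), fun h0 => ?_, (h3.pr.adj_iff _).2 ?_, fun φ hφ => ?_⟩
  · exact oct_one_ne (congrArg Alb.x1 (h3.pr.b1.1 (h0.trans h3.pr.s1.zero.symm)))
  · ext1 <;> simp [adj, mkA]
  · obtain ⟨γ, -, k1⟩ := hΨ.ov.semi φ hφ
    obtain ⟨π, k2⟩ := hp φ hφ
    rw [← h3.inl, h2 φ hφ γ π k1 k2, st6_one]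

theorem r6frame (hFR : FRStmt) (h : Dat6 Γ Φ) (hΨ : GS Γ Φ Ψ) {x : Fin 3 → Alb (1 : Fˣ) 1 1}
    (hx : ∀ i, adj (x i) = 0) (ht : tf (x 0) (cross (x 1) (x 2)) ≠ 0)
    (hp : ∀ φ ∈ Ψ, ∃ π : Perm (Fin 3), ∀ i, ∃ c : F, φ (x i, 0) = c • (x (π i), 0)) :
    ∃ x, x ≠ 0 ∧ adj x = 0 ∧ Fv Ψ (x, 0) := by
  obtain ⟨ψ, h1, c, h2⟩ := exists_std hx ht
  obtain ⟨y, h3, h4, h5⟩ := r6std hFR (h.tr h1) (hΨ.tr h1) fun φ hφ => by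
    obtain ⟨π, k1⟩ := hp _ hφ
    obtain ⟨γ, -, k2⟩ := (hΨ.tr h1).ov.semi φ hφ
    exact ⟨π, fun i => line_tr h1.semi k2 (h2 i).2 (h2 _).2 (h2 _).1 (k1 i)⟩
  have h6 := sim6_one.2 h1
  refine ⟨fs6 ψ false y, fun h0 => h3 (h6.pr.b1.1 (h0.trans h6.pr.s1.zero.symm)),
    (h6.pr.adj_iff _).2 h4, ?_⟩
  rw [← h6.inl]
  exact fv_tr.1 h5

theorem r6split (hFR : FRStmt) (h : Dat6 Γ Φ) (hΨ : GS Γ Φ Ψ) {u y : Alb (1 : Fˣ) 1 1}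
    (hu : Fv Ψ (u, 0)) (hy : Fv Ψ (y, 0)) (h0 : cub u ≠ 0) {l : Fin 3 → F}
    (hl : Function.Injective l) (hc : ∀ t : F, cub (t • u - y) = 0 ↔ ∃ i, l i = t) :
    ∃ x, x ≠ 0 ∧ adj x = 0 ∧ Fv Ψ (x, 0) := by
  obtain ⟨h1, h2⟩ := frame_of_roots h0 hl fun i => (hc _).2 ⟨i, rfl⟩
  refine r6frame hFR h hΨ (x := fun i => uop u (adj (l i • u - y)))
    (fun i => by rw [adj_uop, h1, uop_zero])
    (by rw [cross_uop, tf_uop_uop]; exact mul_ne_zero (pow_ne_zero 2 h0) h2) fun φ hφ => ?_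
  obtain ⟨γ, -, ν, _, k1⟩ := hΨ.sim' hφ
  have k0 : fs6 φ false u = u := congrArg Prod.fst (hu φ hφ)
  have k2 : ∀ t : F, fs6 φ false (t • u - y) = γ t • u - y := fun t => by
    rw [k1.pr.s1.sub, k1.pr.s1.smul, k0, show fs6 φ false y = y from congrArg Prod.fst (hy φ hφ)]
  choose p hp using fun i => (hc (γ (l i))).1 (by
    rw [← k2, k1.pr.c1, (hc _).2 ⟨i, rfl⟩, map_zero, mul_zero])
  have k3 : Function.Injective p := fun i j hij => hl (γ.injective (by rw [← hp, ← hp, hij]))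
  refine ⟨Equiv.ofBijective p k3.bijective_of_finite, fun i => ⟨ν⁻¹, ?_⟩⟩
  have k4 := k1.pr.adj (l i • u - y)
  have k5 := k1.pr.uop u (adj (l i • u - y))
  rw [one_smul, k2, ← hp, ← inv_smul_eq_iff₀ k1.ne.1] at k4
  rw [one_smul, k0, ← k4, uop_smul] at k5
  rw [k1.inl, ← k5, smul_inl, Equiv.ofBijective_apply]

/-- **There is a fixed vector of rank one.** -/
theorem r6 (hFR : FRStmt) (h : Dat6 Γ Φ) (hΨ : GS Γ Φ Ψ) :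
    ∃ x, x ≠ 0 ∧ adj x = 0 ∧ Fv Ψ (x, 0) := by
  have h0 : (cb (⟨1, 1, 1, 0, 0, 0⟩ : Alb (1 : Fˣ) 1 1) ⟨0, 1, -1, 0, 0, 0⟩).discr ≠ 0 := by
    simp [cb, Cubic.discr, cub, tf, adj]
  obtain ⟨u, h1, h2⟩ := hΨ.exists_all LinearMap.inl_injective hΨ.inl
    (f := ![fun u => cub u, fun u => (cb u ⟨0, 1, -1, 0, 0, 0⟩).discr])
    (Fin.forall_fin_two.2 ⟨PM.id.acub, pf_cb PM.id (PM.const _)⟩)
    (Fin.forall_fin_two.2 ⟨⟨_, cub_diag_one.trans_ne one_ne_zero⟩, ⟨_, h0⟩⟩)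
  obtain ⟨y, h3, h4⟩ := hΨ.exists_pf LinearMap.inl_injective hΨ.inl
    (pf_cb (PM.const u) PM.id) ⟨_, h2 1⟩
  obtain ⟨F', _, _, ι, Γ', hE, h5⟩ := extStmt F Γ (cb u y).toPoly
  have h6 : (cb u y).a ≠ 0 := h2 0
  obtain ⟨s, t, r, h7⟩ := (Cubic.splits_iff_roots_eq_three h6).1 h5
  obtain ⟨k1, k2, k3⟩ := (Cubic.discr_ne_zero_iff_roots_ne h6 h7).1 h4
  have hP : Par ι 1 1 1 1 1 1 := par_one
  obtain ⟨Φ', Ψ', h8, h9, h10, h11⟩ := hΨ.exists_lift h hE hP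
  have h12 : ∀ x : Alb (1 : Fˣ) 1 1, (j6 ι (x, 0) : V6 (1 : F'ˣ) 1 1) = (jA ι x, 0) := fun x => by
    rw [j6, jA_zero]
  have h13 : cub (jA ι u : Alb (1 : F'ˣ) 1 1) ≠ 0 := by
    rw [cub_jA hP]
    exact (map_ne_zero ι).2 h6
  obtain ⟨x, k4, k5, k6⟩ := r6split hFR h8 h9 (h12 u ▸ h10 _ h1) (h12 y ▸ h10 _ h3) h13
    (l := ![s, t, r]) (fun i j hij => by
      fin_cases i <;> fin_cases j <;> simp_all [eq_comm]) fun z => by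
      have k7 := (Cubic.map ι (cb u y)).mem_roots_iff
        (Cubic.ne_zero_of_a_ne_zero ((map_ne_zero ι).2 h6)) z
      rw [h7] at k7
      rw [cub_sub, cub_jA hP, cub_jA hP, adj_jA hP, adj_jA hP, tf_jA hP, tf_jA hP]
      simp only [Cubic.map, cb, map_neg, Multiset.insert_eq_cons, Multiset.mem_cons,
        Multiset.mem_singleton] at k7
      simp only [Fin.exists_fin_succ, Matrix.cons_val_zero, Matrix.cons_val_succ,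
        IsEmpty.exists_iff, or_false, eq_comm (b := z), ← k7.trans (by rw [neg_mul, ← sub_eq_add_neg,
          ← sub_eq_add_neg])]
  obtain ⟨v, k7, k8⟩ := h11 _ k6
  have hj := (bc_jA ι (A := 1) (B := 1) (C := 1) (A' := 1) (B' := 1) (C' := 1)).inj
  have k9 : jA ι v.1 = x := congrArg Prod.fst k8
  refine ⟨v.1, fun h0 => k4 (by rw [← k9, h0, jA_zero]),
    hj (by rw [← adj_jA hP, k9, k5, jA_zero]), ?_⟩
  rwa [← hj ((congrArg Prod.snd k8).trans (jA_zero ι).symm)]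

end Vale.Agent.P011N.Cl.EI
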