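import Vale.Agent.P011N.Cl.EI.Gen

/-!
Similitudes which permute the lines of the diagonal idempotents.
-/

namespace Vale.Agent.P011N.Cl.EI

open Vale.Agent.P011.MPQ Vale.Agent.P011.D4 Vale.Agent.P011.D4.Oct Vale.Agent.P011.E6 Equiv Module
open Vale.Agent.P011.E6.Alb

section tor

variable {F : Type} [Field F] {A B C : Fˣ}

theorem dgA_mkA (d : Fin 3 → F) (x : V4 A B C) : dgA (mkA d x) = d :=
  funext fun i => by fin_cases i <;> rfl

theorem odA_mkA (d : Fin 3 → F) (x : V4 A B C) : odA (mkA d x) = x :=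
  funext fun i => by fin_cases i <;> rfl

theorem alb_ext {x y : Alb A B C} (h1 : ∀ i, dgA x i = dgA y i) (h2 : ∀ i, odA x i = odA y i) :
    x = y := Alb.ext (h1 0) (h1 1) (h1 2) (h2 0) (h2 1) (h2 2)

theorem dgA_smul (t : F) (x : Alb A B C) (i : Fin 3) : dgA (t • x) i = t * dgA x i := by
  fin_cases i <;> rfl

theorem odA_smul (t : F) (x : Alb A B C) (i : Fin 3) : odA (t • x) i = t • odA x i := by
  fin_cases i <;> rfl

theorem odA_add (x y : Alb A B C) (i : Fin 3) : odA (x + y) i = odA x i + odA y i := by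
  fin_cases i <;> rfl

theorem dgA_ee (i j : Fin 3) : dgA (ee i : Alb A B C) j = if j = i then 1 else 0 := by
  fin_cases i <;> fin_cases j <;> rfl

theorem odA_ee (i j : Fin 3) : odA (ee i : Alb A B C) j = 0 := by
  fin_cases i <;> fin_cases j <;> rfl

theorem ee_ne (i : Fin 3) : (ee i : Alb A B C) ≠ 0 := fun h => by
  have h1 := dgA_ee (A := A) (B := B) (C := C) i i
  rw [h, if_pos rfl] at h1
  fin_cases i <;> exact zero_ne_one h1

/-- The inclusion of an off-diagonal entry. -/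
def oo (i : Fin 3) : Oct A B C →ₗ[F] Alb A B C :=
  (albE A B C).symm.toLinearMap ∘ₗ LinearMap.inr F _ _ ∘ₗ LinearMap.single F (fun _ => Oct A B C) i

theorem oo_apply (i : Fin 3) (u : Oct A B C) : oo i u = mkA 0 (Pi.single i u) := rfl

theorem odA_oo (i : Fin 3) (u : Oct A B C) : odA (oo i u) = Pi.single i u := odA_mkA _ _

theorem oo_inj (i : Fin 3) : Function.Injective (oo i : Oct A B C → Alb A B C) := fun u v h => by
  simpa [odA_oo] using congrArg (fun x => odA x i) h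

theorem alb_dec (x : Alb A B C) : x = ∑ i, (dgA x i • ee i + oo i (odA x i)) := by
  ext1 <;> simp [Fin.sum_univ_three, ee, dgA, odA, oo_apply, mkA, e1, e2, e3]

theorem cross_ee {i j k : Fin 3} (h1 : i ≠ j) (h2 : i ≠ k) (h3 : j ≠ k) :
    cross (ee j) (ee k) = (ee i : Alb A B C) := by
  fin_cases i <;> fin_cases j <;> fin_cases k <;> simp [ee, cross, e1, e2, e3] at h1 h2 h3 ⊢

theorem cross_ee_oo {i j : Fin 3} (h : j ≠ i) (u : Oct A B C) : cross (ee j) (oo i u) = 0 := by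
  fin_cases i <;> fin_cases j <;> first | exact absurd rfl h | skip
  all_goals ext1 <;> simp [ee, cross, e1, e2, e3, oo_apply, mkA]

theorem eq_oo {i : Fin 3} {x : Alb A B C} (h : ∀ j, j ≠ i → cross (ee j) x = 0) :
    x = oo i (odA x i) := by
  have h1 := h (i + 1) (by fin_cases i <;> decide)
  have h2 := h (i + 2) (by fin_cases i <;> decide)
  fin_cases i <;> simp [ee, cross, e1, e2, e3, Alb.ext_iff, oo_apply, mkA, odA] at h1 h2 ⊢ <;>
    simp [h1, h2]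

theorem tor_tor (l m : Fin 3 → F) (x : Alb A B C) : tor l (tor m x) = tor (l * m) x := by
  refine alb_ext (fun i => ?_) fun i => ?_
  · simp only [tor, dgA_mkA, Pi.mul_apply]
    ring
  · simp only [tor, odA_mkA, Pi.mul_apply, mul_smul]

theorem tor_const {s : F} (hs : s ≠ 0) (x : Alb A B C) : tor (fun _ => s) x = s • x := by
  refine alb_ext (fun i => ?_) fun i => ?_
  · simp only [tor, dgA_mkA, dgA_smul]
    field_simp
  · simp only [tor, odA_mkA, odA_smul]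

theorem cub_tor {m : Fin 3 → F} (hm : ∀ i, m i ≠ 0) (x : Alb A B C) :
    cub (tor m x) = m 0 * m 1 * m 2 * cub x := by
  have h0 := hm 0
  have h1 := hm 1
  have h2 := hm 2
  simp [cub, tor, mkA, dgA, odA, Oct.norm_smul]
  simp only [smul_mul_oct, mul_smul_oct, bil_smul_left]
  field_simp

/-- The diagonal similitudes, as bijections. -/
def torE (m : Fin 3 → F) (hm : ∀ i, m i ≠ 0) : Perm (Alb A B C) where
  toFun := tor m
  invFun := tor m⁻¹
  left_inv x := by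
    rw [tor_tor, show m⁻¹ * m = fun _ => 1 from funext fun i => inv_mul_cancel₀ (hm i),
      tor_const one_ne_zero, one_smul]
  right_inv x := by
    rw [tor_tor, show m * m⁻¹ = fun _ => 1 from funext fun i => mul_inv_cancel₀ (hm i),
      tor_const one_ne_zero, one_smul]

theorem semi_tor (m : Fin 3 → F) : Semi (id : F → F) (tor m : Alb A B C → Alb A B C) :=
  fun t x y => by
    ext1 <;> simp [tor, mkA, dgA, odA, smul_comm t] <;> ring

theorem tor_ee (l : Fin 3 → F) (i : Fin 3) :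
    tor l (ee i : Alb A B C) = (l (i + 1) * l (i + 2) / l i) • ee i := by
  refine alb_ext (fun j => ?_) fun j => ?_
  · simp only [tor, dgA_mkA, dgA_smul, dgA_ee]
    split_ifs with h
    · rw [h]
    · rw [mul_zero, mul_zero]
  · simp only [tor, odA_mkA, odA_smul, odA_ee, smul_zero]

/-- The matrices with zero diagonal and scalar entries. -/
def un (A B C : Fˣ) : (Fin 3 → F) →ₗ[F] Alb A B C where
  toFun m := mkA 0 fun i => m i • 1
  map_add' x y := by ext1 <;> simp [mkA, add_smul]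
  map_smul' t x := by ext1 <;> simp [mkA, mul_smul]

theorem un_apply (m : Fin 3 → F) : un A B C m = mkA 0 fun i => m i • 1 := rfl

theorem un_inj : Function.Injective (un A B C) := fun m m' h => funext fun i => by
  have h1 := congrArg (fun x => odA x i) h
  simp only [un_apply, odA_mkA] at h1
  exact smul_left_injective F oct_one_ne h1

theorem tor_un (l m : Fin 3 → F) : tor l (un A B C m) = un A B C (l * m) := by
  refine alb_ext (fun i => ?_) fun i => ?_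
  · simp only [tor, un_apply, dgA_mkA, Pi.zero_apply, mul_zero]
  · simp only [tor, un_apply, odA_mkA, Pi.mul_apply, mul_smul]

theorem perm3 : ∀ (σ : Perm (Fin 3)) (i : Fin 3), (σ i + 1 = σ (i + 1) ∧ σ i + 2 = σ (i + 2)) ∨
    (σ i + 1 = σ (i + 2) ∧ σ i + 2 = σ (i + 1)) := by decide

/-- The cyclic permutation. -/
def cyc : Perm (Fin 3) := Equiv.addRight 1

theorem cyc_apply (i : Fin 3) : cyc i = i + 1 := rfl

variable [CharZero F] {γ : Gl F} {π : Perm (Fin 3)}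

theorem st4_eq (x : V4 A B C) (i : Fin 3) : st4 γ π x i = so4 γ π (x (π⁻¹ i)) := by
  rw [← st4_apply]
  simp

theorem so4_one : so4 γ π (1 : Oct A B C) = 1 := by
  rw [so4, jO_one, star_one, ite_self]

theorem st6_tor (m : Fin 3 → F) (x : Alb A B C) :
    st6 γ π (tor m x) = tor (fun i => γ (m (π⁻¹ i))) (st6 γ π x) := by
  refine alb_ext (fun i => ?_) fun i => ?_
  · simp only [tor, st6, dgA_mkA, map_mul, map_div₀]
    rcases perm3 π⁻¹ i with h | h <;> rw [h.1, h.2]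
    ring
  · simp only [tor, st6, odA_mkA, st4_eq, (so4_semi γ π).smul]

theorem st6_un (m : Fin 3 → F) : st6 γ π (un A B C m) = un A B C fun i => γ (m (π⁻¹ i)) := by
  refine alb_ext (fun i => ?_) fun i => ?_
  · simp only [st6, un_apply, dgA_mkA, Pi.zero_apply, map_zero]
  · simp only [st6, un_apply, odA_mkA, st4_eq, (so4_semi γ π).smul, so4_one]

theorem st6_one : st6 γ π (mkA 1 1 : Alb A B C) = mkA 1 1 := by
  refine alb_ext (fun i => ?_) fun i => ?_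
  · simp only [st6, dgA_mkA, Pi.one_apply, map_one]
  · simp only [st6, odA_mkA, st4_eq, Pi.one_apply, so4_one]

theorem st6_ee (i : Fin 3) : st6 γ π (ee i : Alb A B C) = ee (π i) := by
  refine alb_ext (fun j => ?_) fun j => ?_
  · simp only [st6, dgA_mkA, dgA_ee, Perm.inv_eq_iff_eq, apply_ite γ, map_one, map_zero]
  · simp only [st6, odA_mkA, st4_eq, odA_ee, (so4_semi γ π).zero]

theorem st6_id (x : Alb A B C) : st6 γ 1 x = jA γ x := by
  ext1 <;> simp [st6, mkA, st4, dgA, odA, jA]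

theorem tor_cyc {e : F} (x : Alb A B C) : tor ![e, 1, 1] (st6 γ cyc x) = ph6 γ e x := by
  have h0 : cyc⁻¹ 0 = 2 ∧ cyc⁻¹ 1 = 0 ∧ cyc⁻¹ 2 = 1 ∧ Perm.sign cyc = 1 := by decide
  ext1 <;> simp [tor, st6, mkA, st4, dgA, odA, ph6, h0]

theorem exists_tor {m : Fin 3 → F} (hm : ∀ i, m i ≠ 0) : ∃ T : V6 A B C ≃ V6 A B C,
    (∃ ν₁ ν₂, Sim6 id false ν₁ ν₂ 1 T) ∧ ∀ x, T (x, 0) = (tor m x, 0) := by
  obtain ⟨T, h1, h2⟩ := exists_sim6 (γ := 1) (l := 1) (torE m hm) (semi_tor m) (cub_tor hm)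
    (mul_ne_zero (mul_ne_zero (hm 0) (hm 1)) (hm 2)) one_ne_zero
  exact ⟨T, ⟨_, _, h1⟩, h2⟩

/-- The map permutes the lines of the idempotents. -/
def Pe (φ : V6 A B C → V6 A B C) (π : Perm (Fin 3)) : Prop :=
  ∀ i, ∃ c : F, φ (ee i, 0) = c • (ee (π i), 0)

/-- The normal form. -/
def Nf (γ : Gl F) (π : Perm (Fin 3)) (φ : V6 A B C → V6 A B C) : Prop :=
  ∃ l : Fin 3 → F, (∀ i, l i ≠ 0) ∧ ∀ x, φ (x, 0) = (tor l (st6 γ π x), 0)

theorem Nf.un {φ : V6 A B C → V6 A B C} (h : Nf γ π φ) : ∃ l : Fin 3 → F, (∀ i, l i ≠ 0) ∧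
    ∀ m, φ (un A B C m, 0) = (un A B C fun i => l i * γ (m (π⁻¹ i)), 0) := by
  obtain ⟨l, h1, h2⟩ := h
  exact ⟨l, h1, fun m => by rw [h2, st6_un, tor_un]; rfl⟩

theorem Nf.tor {φ : V6 A B C → V6 A B C} (h : Nf γ π φ) {m m' : Fin 3 → F}
    (hm : φ (EI.un A B C m, 0) = (EI.un A B C m', 0)) (x : Alb A B C) :
    φ (tor m x, 0) = (tor m' (st6 γ π x), 0) := by
  obtain ⟨l, -, h2⟩ := h
  rw [h2, st6_un, tor_un] at hm
  rw [h2, st6_tor, tor_tor, un_inj (congrArg Prod.fst hm)]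

variable {ν₁ ν₂ l : F} {φ : Perm (V6 A B C)}

theorem Pe.fs (h : Pe φ π) (hs : Sim6 γ false ν₁ ν₂ l φ) (i : Fin 3) :
    ∃ c : F, c ≠ 0 ∧ fs6 φ false (ee i) = c • ee (π i) := by
  obtain ⟨c, hc⟩ := h i
  exact ⟨c, fun h0 => hs.semi.ne_zero (inl_ne (ee_ne i)) (by rw [hc, h0, zero_smul]),
    congrArg Prod.fst hc⟩

theorem Pe.inr (h : Pe φ π) (hs : Sim6 γ false ν₁ ν₂ l φ) (i : Fin 3) :
    ∃ c : F, φ (0, ee i) = c • (0, ee (π i)) := by
  obtain ⟨c, -, hc⟩ := h.fs hs (i + 1)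
  obtain ⟨d, -, hd⟩ := h.fs hs (i + 2)
  have h0 : ∀ i : Fin 3, i ≠ i + 1 ∧ i ≠ i + 2 ∧ i + 1 ≠ i + 2 := by decide
  have h1 := hs.pr.cross (ee (i + 1)) (ee (i + 2))
  rw [hc, hd, cross_smul_left, cross_smul_right, cross_ee (h0 i).1 (h0 i).2.1 (h0 i).2.2,
    cross_ee (π.injective.ne (h0 i).1) (π.injective.ne (h0 i).2.1) (π.injective.ne (h0 i).2.2),
    ← inv_smul_eq_iff₀ hs.ne.1] at h1
  rw [hs.inr, ← h1, smul_smul, smul_smul, smul_smul, smul_inr]
  exact ⟨_, rfl⟩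

theorem Pe.oo (h : Pe φ π) (hs : Sim6 γ false ν₁ ν₂ l φ) (i : Fin 3) (u : Oct A B C) :
    ∃ u', fs6 φ false (oo i u) = oo (π i) u' := by
  refine ⟨_, eq_oo fun j hj => ?_⟩
  obtain ⟨j, rfl⟩ := π.surjective j
  obtain ⟨c, h1, h2⟩ := h.fs hs j
  have h3 := hs.pr.cross_eq (ee j) (EI.oo i u)
  rw [cross_ee_oo (fun h4 => hj (congrArg π h4)), hs.pr.s2.zero, smul_zero, h2,
    cross_smul_left] at h3
  exact (smul_eq_zero.1 h3).resolve_left h1

theorem Pe.od (h : Pe φ π) (hs : Sim6 γ false ν₁ ν₂ l φ) (x : Alb A B C) (i : Fin 3) :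
    φ (EI.oo i (odA x i), 0) = (EI.oo (π i) (odA (fs6 φ false x) (π i)), 0) := by
  choose u hu using fun j => h.oo hs j (odA x j)
  choose c _ hc using h.fs hs
  have h1 : fs6 φ false x = ∑ j, ((γ (dgA x j) * c j) • ee (π j) + EI.oo (π j) (u j)) := by
    conv_lhs => rw [alb_dec x, hs.pr.s1.sum]
    exact Finset.sum_congr rfl fun j _ => by rw [hs.pr.s1, hc, hu, smul_smul]
  have h2 : ∀ j, (Pi.single (π j) (u j) : V4 A B C) (π i) = if j = i then u i else 0 := fun j => by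
    split_ifs with h3
    · rw [h3, Pi.single_eq_same]
    · exact Pi.single_eq_of_ne (π.injective.ne (Ne.symm h3)) _
  rw [hs.inl, hu, h1, Fin.sum_univ_three]
  simp only [odA_add, odA_smul, odA_ee, smul_zero, zero_add, odA_oo, h2]
  fin_cases i <;> simp

end tor

section nf

variable {F : Type} [Field F] [NumberField F] {A B C : Fˣ} {Γ : Subgroup (Gl F)}

theorem exists_un {Ψ : Subgroup (Perm (V6 A B C))} (h : Gen Γ Ψ)
    (hn : ∀ φ ∈ Ψ, ∀ γ : Gl F, Semi γ φ → ∃ π, Nf γ π φ) :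
    ∃ m : Fin 3 → F, Fv Ψ (un A B C m, 0) ∧ ∀ i, m i ≠ 0 :=
  h.exists_all (L := LinearMap.inl F _ _ ∘ₗ un A B C) (LinearMap.inl_injective.comp un_inj)
    (fun φ hφ m => by
      obtain ⟨γ, -, h1⟩ := h.ov.semi φ hφ
      obtain ⟨π, h2⟩ := hn φ hφ γ h1
      obtain ⟨l, -, h3⟩ := h2.un
      exact ⟨fun i => l i * γ (m (π⁻¹ i)), h3 m⟩)
    (f := fun i m => m i) (fun i => (PM.id.proj i).pf) fun _ => ⟨1, one_ne_zero⟩

/-- The normal form of an inner group which permutes the standard frame. -/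
theorem frc (hFR : FRStmt) {Φ : Subgroup (Perm (V6 (1 : Fˣ) 1 1))} (h : Dat6 Γ Φ)
    (hi : ∀ φ ∈ Φ, ∀ x, (φ (x, 0)).2 = 0) {y : V4 (1 : Fˣ) 1 1} (hy : ∀ i, y i ≠ 0)
    (hp : ∀ φ ∈ Φ, ∃ π, Pe φ π ∧
      ∀ i, ∃ c : F, φ (oo i (y i), 0) = c • (oo (π i) (y (π i)), 0)) :
    ∃ a b c : Fˣ, Fx Γ (a : F) ∧ Fx Γ (b : F) ∧ Fx Γ (c : F) ∧
      ∃ ψ : V6 a b c ≃ V6 (1 : Fˣ) 1 1, (∃ ν₁ ν₂ l, Sim6 id false ν₁ ν₂ l ψ) ∧
        ∀ φ ∈ tr ψ Φ, ∀ (γ : Gl F) π, Semi γ φ → Pe (ψ.permCongr φ) π → Nf γ π φ := by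
  obtain ⟨a, b, c, ha, hb, hc, ψ, ⟨_, _, _, h1⟩, h2, h3⟩ := hFR F Γ Φ y h hy fun φ hφ => by
    obtain ⟨π, k1, k2⟩ := hp φ hφ
    obtain ⟨γ, -, k3⟩ := h.ov.semi φ hφ
    obtain ⟨_, _, _, k4⟩ := sim_false h hi hφ k3
    refine ⟨false, π, fun i δ => ?_, k2⟩
    cases δ
    exacts [k1 i, k1.inr k4 i]
  refine ⟨a, b, c, ha, hb, hc, ψ, ⟨_, _, _, h1⟩, fun φ hφ γ π k1 k2 => ?_⟩
  obtain ⟨ε, π', l, k3, k4⟩ := h3 φ hφ γ ((h.ov.tr h1.semi).mem hφ k1) k1
  have k0 := semi_one.2 h1.semi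
  have k5 : ∀ i, ∃ s t : F, t ≠ 0 ∧ s • ((ee (π i), 0) : V6 a b c) = inj ε (t • ee (π' i)) := by
    intro i
    obtain ⟨t, ht⟩ := h2 i false
    obtain ⟨t', ht'⟩ := h2 (π i) false
    obtain ⟨s, hs⟩ := k2 i
    change ψ (ee i, 0) = t • (ee i, 0) at ht
    change ψ (ee (π i), 0) = t' • (ee (π i), 0) at ht'
    have k6 : t' ≠ 0 := fun h0 => k0.ne_zero (inl_ne (ee_ne _)) (by rw [ht', h0, zero_smul])
    refine ⟨γ t * s * t'⁻¹, l (π' i + 1) * l (π' i + 2) / l (π' i),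
      div_ne_zero (mul_ne_zero (k3 _) (k3 _)) (k3 _), ψ.injective ?_⟩
    rw [← tor_ee, ← st6_ee (γ := γ) (π := π'), ← k4, k0.smul, ht', smul_smul, AlgEquiv.one_apply,
      inv_mul_cancel_right₀ k6, mul_smul, ← hs, ← ((semi_congr h1.semi).2 k1).smul, ← ht]
    simp
  obtain rfl : ε = false := by
    cases ε
    · rfl
    · obtain ⟨s, t, k6, k7⟩ := k5 0
      exact absurd ((congrArg Prod.snd k7).symm.trans (smul_zero s)) (smul_ne_zero k6 (ee_ne _))
  obtain rfl : π = π' := Equiv.ext fun i => by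
    obtain ⟨s, t, k6, k7⟩ := k5 i
    have k8 := congrArg (fun v : V6 a b c => dgA v.1 (π' i)) k7
    simp only [inj, Bool.false_eq_true, if_false, Prod.smul_fst, dgA_smul, dgA_ee, if_true] at k8
    by_contra k9
    rw [if_neg (Ne.symm k9), mul_zero, mul_one] at k8
    exact k6 k8.symm
  exact ⟨l, k3, k4⟩

end nf

end Vale.Agent.P011N.Cl.EI
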